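import Vale.Agent.P154.Q3.Pointwise
import Vale.Agent.P154.Tree.Laws

/-!
# Three states: the criterion holds at every nonnegative edge parameter
-/

namespace Vale.Agent.P154.Q3

open Vale.Agent.P154.Tree Finset

/-- The second orientation. -/
def flipTri (v : Fin 3 → ℝ) : Fin 3 → ℝ := ![v 0, v 2, v 1]

theorem sum_perm_three (u v : Fin 3 → ℝ) (f : (Fin 3 → ℝ) → ℝ) :
    ∑ s : Equiv.Perm (Fin 3), homExt f (fun i => u i * v (s i))
      = tSum f u v + tSum f u (flipTri v) := by
  have huniv : (univ : Finset (Equiv.Perm (Fin 3)))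
      = {1, Equiv.swap 0 1 * Equiv.swap 1 2, Equiv.swap 1 2 * Equiv.swap 0 1, Equiv.swap 1 2,
        Equiv.swap 0 2, Equiv.swap 0 1} := by decide
  rw [huniv, sum_insert (by decide), sum_insert (by decide), sum_insert (by decide),
    sum_insert (by decide), sum_insert (by decide), sum_singleton]
  have e : ∀ (s : Equiv.Perm (Fin 3)) (a b c : Fin 3), s 0 = a → s 1 = b → s 2 = c →
      (fun i => u i * v (s i)) = ![u 0 * v a, u 1 * v b, u 2 * v c] := by
    intro s a b c ha hb hc
    funext i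
    fin_cases i <;> simp [ha, hb, hc]
  rw [e 1 0 1 2 rfl rfl rfl,
    e (Equiv.swap 0 1 * Equiv.swap 1 2) 1 2 0 (by decide) (by decide) (by decide),
    e (Equiv.swap 1 2 * Equiv.swap 0 1) 2 0 1 (by decide) (by decide) (by decide),
    e (Equiv.swap 1 2) 0 2 1 (by decide) (by decide) (by decide),
    e (Equiv.swap 0 2) 2 1 0 (by decide) (by decide) (by decide),
    e (Equiv.swap 0 1) 1 0 2 (by decide) (by decide) (by decide)]
  simp only [tSum, tw, flipTri, Matrix.cons_val_zero, Matrix.cons_val_one, Matrix.cons_val]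
  ring

theorem flip_inv (v : Fin 3 → ℝ) :
    cOf (flipTri v) = cOf v ∧ AOf (flipTri v) = AOf v ∧ phi3 (flipTri v) = phi3 v ∧
      sqDev (flipTri v) = sqDev v := by
  have hc : cOf (flipTri v) = cOf v := by simp [cOf, flipTri]; ring
  have hp : (flipTri v) 0 * (flipTri v) 1 * (flipTri v) 2 = v 0 * v 1 * v 2 := by
    simp [flipTri]; ring
  refine ⟨hc, by simp [AOf, hc], ?_, ?_⟩
  · simp only [phi3, sOf, PmOf, AOf, gmOf, hc, hp]
  · simp [sqDev3, flipTri]; ring

theorem flip_onSimplex {v : Fin 3 → ℝ} (hv : OnSimplex v) : OnSimplex (flipTri v) := by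
  refine ⟨fun i => ?_, ?_⟩
  · fin_cases i <;> simp [flipTri, hv.1]
  · simp [flipTri]; linarith [hv.2]

theorem onSimplex_of {u : Fin 3 → ℝ} (h0 : ∀ i, 0 ≤ u i) (h1 : ∑ i, u i = 1) : OnSimplex u :=
  ⟨h0, by rw [Fin.sum_univ_three] at h1; exact h1⟩

theorem bounds {u : Fin 3 → ℝ} (hu : OnSimplex u) :
    0 ≤ AOf u ∧ AOf u ≤ 1 ∧ |phi3 u| ≤ 3 ∧ 0 ≤ sqDev u ∧ sqDev u ≤ 1 := by
  have hc := c_nonneg hu.1
  have hc1 := c_le_one hu
  have hg := gm_nonneg hu.1
  have hg1 := gm_le_one hu
  have h3 := pow_le_one₀ (n := 3) hg hg1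
  have h3' := pow_nonneg hg 3
  rw [gm_cube hu.1] at h3 h3'
  refine ⟨by simp [AOf]; linarith, by simp [AOf]; linarith, ?_, sum_nonneg fun i _ => sq_nonneg _,
    sqDev_le_one hu.1 (by rw [Fin.sum_univ_three]; exact hu.2)⟩
  rw [abs_le]
  constructor <;> simp only [phi3, sOf, AOf] <;> linarith

variable {ι κ : Type}

theorem homExt_const_mul (a : ℝ) (f : (Fin 3 → ℝ) → ℝ) (x : Fin 3 → ℝ) :
    homExt (fun u => a * f u) x = a * homExt f x := by
  simp only [homExt]; ring

theorem total_const_mul (a : ℝ) (f : (Fin 3 → ℝ) → ℝ) (X : ι → Fin 3 → ℝ) :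
    total (homExt (fun u => a * f u)) X = a * total (homExt f) X := by
  simp [total, homExt_const_mul, tsum_mul_left]

theorem total_one {X : ι → Fin 3 → ℝ} (hX : IsChan X) :
    total (homExt (fun _ => (1 : ℝ))) X = 3 := by
  simp only [total, homExt, mul_one]
  simpa using hX.hasSum_mass.tsum_eq

theorem total_nonneg_fun {X : ι → Fin 3 → ℝ} (hX : IsChan X) {f : (Fin 3 → ℝ) → ℝ}
    (hf : ∀ u, OnSimplex u → 0 ≤ f u) : 0 ≤ total (homExt f) X := by
  refine tsum_nonneg fun o => ?_
  rcases eq_or_ne (∑ i, X o i) 0 with h | h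
  · simp [homExt, h]
  · obtain ⟨u0, u1⟩ := exists_unit (hX.nonneg o) h
    exact mul_nonneg (hX.mass_nonneg o) (hf _ (onSimplex_of u0 u1))

theorem total_sq_ge {X : ι → Fin 3 → ℝ} (hX : IsChan X) :
    3 / 4 * total SS X ^ 2 ≤ total (homExt (fun u => AOf u ^ 2)) X := by
  set t := 1 / 2 * total SS X with ht
  have hA : MassBdd (homExt fun u : Fin 3 → ℝ => AOf u ^ 2) :=
    massBdd_homExt (K := 1) fun u h0 h1 => by
      obtain ⟨a, b, -⟩ := bounds (onSimplex_of h0 h1)
      rw [abs_of_nonneg (sq_nonneg _)]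
      exact pow_le_one₀ a b
  have hS : HasSum (fun o => SS (X o)) (total SS X) := (hX.summable massBdd_SS).hasSum
  have hR := (hS.mul_left (3 * t)).sub (hX.hasSum_mass.mul_left (t ^ 2))
  have hle := hasSum_le (fun o => ?_) hR (hX.summable hA).hasSum
  · refine le_trans (le_of_eq ?_) hle
    rw [ht]
    push_cast
    ring
  · rcases eq_or_ne (∑ i, X o i) 0 with h | h
    · simp [SS, homExt, h]
    · obtain ⟨u0, u1⟩ := exists_unit (hX.nonneg o) h
      have hu := onSimplex_of u0 u1
      simp only [SS, homExt]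
      rw [A_eq_sqDev hu.2]
      nlinarith [mul_nonneg (hX.mass_nonneg o)
        (sq_nonneg (3 / 2 * sqDev (fun i => X o i / ∑ j, X o j) - t))]

theorem mul_phi3 {X : ι → Fin 3 → ℝ} {Y : κ → Fin 3 → ℝ} (hX : IsChan X) (hY : IsChan Y)
    (hYs : IsSymm Y) (hXp : 0 ≤ total (homExt phi3) X) (hYp : 0 ≤ total (homExt phi3) Y) :
    0 ≤ total (homExt phi3) (mulChan X Y) := by
  have h := total_mul_le_simplex hX hY hYs (F := fun u => (-1) * phi3 u) (K := 3)
    (fun u h0 h1 => by simpa using (bounds (onSimplex_of h0 h1)).2.2.1)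
    ![fun u => (-1 / 3) * phi3 u, cOf] ![cOf, fun u => (-1 / 3) * phi3 u] (Kf := 3) (Kg := 3)
    (fun l u h0 h1 => ?_) (fun l u h0 h1 => ?_) (fun u v u0 u1 v0 v1 => ?_)
  · simp only [total_const_mul, Fin.sum_univ_two, Matrix.cons_val_zero, Matrix.cons_val_one] at h
    have hcX : 0 ≤ total (homExt cOf) X := total_nonneg_fun hX fun u hu => c_nonneg hu.1
    have hcY : 0 ≤ total (homExt cOf) Y := total_nonneg_fun hY fun u hu => c_nonneg hu.1
    nlinarith [mul_nonneg hXp hcY, mul_nonneg hcX hYp]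
  iterate 2
    have hu := onSimplex_of h0 h1
    obtain ⟨-, -, a, -, -⟩ := bounds hu
    have := c_nonneg hu.1
    have := c_le_one hu
    rw [abs_le] at a
    fin_cases l <;> simp only [Fin.zero_eta, Fin.mk_one, Fin.isValue, Matrix.cons_val_zero,
      Matrix.cons_val_one, abs_le] <;> constructor <;> linarith
  · have hu := onSimplex_of u0 u1
    have hv := onSimplex_of v0 v1
    have p1 := pointwise_phi hu hv
    have p2 := pointwise_phi hu (flip_onSimplex hv)
    obtain ⟨e1, -, e3, -⟩ := flip_inv v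
    rw [e1, e3] at p2
    simp only [homExt_const_mul, ← mul_sum, sum_perm_three, Fin.sum_univ_two,
      Matrix.cons_val_zero, Matrix.cons_val_one]
    norm_num
    linarith

theorem mul_SS3 {X : ι → Fin 3 → ℝ} {Y : κ → Fin 3 → ℝ} (hX : IsChan X) (hY : IsChan Y)
    (hYs : IsSymm Y) (hXp : 0 ≤ total (homExt phi3) X) (hYp : 0 ≤ total (homExt phi3) Y) :
    total SS (mulChan X Y)
      ≤ total SS X + total SS Y - 1 / 40 * (total SS X * total SS Y) ^ 2 := by
  have h := total_mul_le_simplex hX hY hYs (F := sqDev) (K := 1)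
    (fun u h0 h1 => by
      obtain ⟨-, -, -, a, b⟩ := bounds (onSimplex_of h0 h1)
      rwa [abs_of_nonneg a])
    ![fun u => (1 / 3) * sqDev u, fun _ => 1, fun u => (-2 / 9) * phi3 u,
      fun u => AOf u * cOf u, fun u => (-2 / 45) * AOf u ^ 2]
    ![fun _ => 1, fun u => (1 / 3) * sqDev u, fun u => AOf u * cOf u,
      fun u => (-2 / 9) * phi3 u, fun u => AOf u ^ 2] (Kf := 3) (Kg := 3)
    (fun l u h0 h1 => ?_) (fun l u h0 h1 => ?_) (fun u v u0 u1 v0 v1 => ?_)
  · simp only [total_const_mul, Fin.sum_univ_five, Matrix.cons_val_zero, Matrix.cons_val_one,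
      Matrix.cons_val, total_one hX, total_one hY] at h
    have hAX : 0 ≤ total (homExt fun u => AOf u * cOf u) X :=
      total_nonneg_fun hX fun u hu => mul_nonneg (bounds hu).1 (c_nonneg hu.1)
    have hAY : 0 ≤ total (homExt fun u => AOf u * cOf u) Y :=
      total_nonneg_fun hY fun u hu => mul_nonneg (bounds hu).1 (c_nonneg hu.1)
    have sX := total_sq_ge hX
    have sY := total_sq_ge hY
    have hq := mul_le_mul sX sY (by positivity) (le_trans (by positivity) sX)
    change total SS (mulChan X Y) ≤ _ at h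
    change _ ≤ _ at h
    rw [show total (homExt sqDev) X = total SS X from rfl,
      show total (homExt sqDev) Y = total SS Y from rfl] at h
    nlinarith [mul_nonneg hXp hAY, mul_nonneg hAX hYp]
  iterate 2
    have hu := onSimplex_of h0 h1
    obtain ⟨a0, a1, a, b0, b1⟩ := bounds hu
    have := mul_le_one₀ a1 (c_nonneg hu.1) (c_le_one hu)
    have := mul_nonneg a0 (c_nonneg hu.1)
    have := pow_le_one₀ (n := 2) a0 a1
    have := sq_nonneg (AOf u)
    rw [abs_le] at a
    fin_cases l <;> simp only [Fin.zero_eta, Fin.mk_one, Fin.reduceFinMk, Fin.isValue,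
      Matrix.cons_val_zero, Matrix.cons_val_one, Matrix.cons_val, abs_le] <;>
      constructor <;> linarith
  · have hu := onSimplex_of u0 u1
    have hv := onSimplex_of v0 v1
    have p1 := pointwise_ss hu hv
    have p2 := pointwise_ss hu (flip_onSimplex hv)
    obtain ⟨e1, e2, e3, e4⟩ := flip_inv v
    rw [e1, e2, e3, e4] at p2
    simp only [sum_perm_three, Fin.sum_univ_five, Matrix.cons_val_zero, Matrix.cons_val_one,
      Matrix.cons_val, show Nat.factorial 3 = 6 from rfl]
    push_cast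
    linarith

theorem edge_phi3 {lam : ℝ} (h0 : 0 ≤ lam) (h1 : lam ≤ 1) {Y : ι → Fin 3 → ℝ} (hY : IsChan Y)
    (hYp : 0 ≤ total (homExt phi3) Y) : 0 ≤ total (homExt phi3) (edge lam Y) := by
  have e : total (homExt phi3) (edge lam Y)
      = total (homExt fun v => phi3 (shrink lam v)) Y := by
    simp [total, homExt_edge]
  rw [e]
  refine total_nonneg_of_le hY (pow_nonneg h0 3) (massBdd_homExt (K := 3) fun u a b => ?_)
    (massBdd_homExt (K := 3) fun u a b => ?_) (fun u a b => phi3_shrink (onSimplex_of a b) h0 h1) hYp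
  · exact (bounds (onSimplex_of a b)).2.2.1
  · refine (bounds (onSimplex_of (fun i => ?_) ?_)).2.2.1
    · have := a i
      have : 0 ≤ 1 - lam := by linarith
      simp only [shrink]
      positivity
    · simp [shrink, sum_add_distrib, ← mul_sum, b, Fin.sum_univ_three]
      ring

/-- For three states the criterion holds at every `lam ∈ [0, 1]`, with slack `1/40` of order
two. -/
theorem good3 {lam : ℝ} (h0 : 0 ≤ lam) (h1 : lam ≤ 1) : Good 3 lam phi3 (1 / 40) 2 where
  bdd := ⟨3, fun u a b => (bounds (onSimplex_of a b)).2.2.1⟩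
  uniform := by
    have hu : ∀ i : Fin 3, (0 : ℝ) ≤ (fun _ : Fin 3 => (1 : ℝ) / 3) i := fun _ => by norm_num
    have hg : gmOf (fun _ : Fin 3 => (1 : ℝ) / 3) = 1 := by
      refine (pow_left_inj₀ (gm_nonneg hu) zero_le_one (by norm_num : (3 : ℕ) ≠ 0)).1 ?_
      rw [gm_cube hu, PmOf]
      norm_num
    simp only [homExt, sum_const, card_univ, Fintype.card_fin, nsmul_eq_mul, Nat.cast_ofNat,
      mul_one]
    simp only [phi3, hg, sOf, AOf, PmOf, cOf]
    norm_num
  leaf := by
    refine sum_nonneg fun i _ => ?_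
    have hu : OnSimplex (fun j => if i = j then (1 : ℝ) else 0) := by
      refine onSimplex_of (fun j => by split_ifs <;> norm_num) (by simp)
    rw [homExt_of_sum_one _ (by simp)]
    have hc : cOf (fun j => if i = j then (1 : ℝ) else 0) = 0 := by
      fin_cases i <;> simp [cOf]
    rw [(values_point hu hc).2]
    norm_num
  edge ι Y hY _ hYp := edge_phi3 h0 h1 hY hYp
  mulPhi ι κ X Y hX _ hXp hY hYs hYp :=
    mul_phi3 hX (hY.edge' (adm_of_unit h0 h1)) (hYs.edge' lam) hXp (edge_phi3 h0 h1 hY hYp)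
  mulSS ι κ X Y hX _ hXp hY hYs hYp :=
    mul_SS3 hX (hY.edge' (adm_of_unit h0 h1)) (hYs.edge' lam) hXp (edge_phi3 h0 h1 hY hYp)

/-- Nonreconstruction for the ferromagnetic three-state channel on Galton-Watson trees. -/
theorem tendsto_adv_three {w : ℕ → ℝ} {d lam : ℝ} (hw : IsLaw w d) (h0 : 0 ≤ lam) (h1 : lam ≤ 1)
    (hd : d * lam ^ 2 < 1 ∨ (d * lam ^ 2 ≤ 1 ∧ 0 < branchProb w)) :
    Filter.Tendsto (adv 3 w lam) Filter.atTop (nhds 0) :=
  tendsto_adv_zero (good3 h0 h1) (by norm_num) hw (adm_of_unit h0 h1)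
    (hd.imp id fun h => ⟨h.1, by norm_num, h.2⟩)

end Vale.Agent.P154.Q3
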