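import Vale.Agent.P154.Q3.Exprs

/-!
# The kernel checks and their real consequences on the simplex
-/

namespace Vale.Agent.P154.Q3

/-- Cast of integer constants. -/
def kR (z : ℤ) : ℝ := (z : ℝ)

/-- Sum of pairwise products, tripled: `1 - A`. -/
def cOf (u : Fin 3 → ℝ) : ℝ := 3 * (u 0 * u 1 + u 1 * u 2 + u 2 * u 0)
/-- `A`. -/
def AOf (u : Fin 3 → ℝ) : ℝ := 1 - cOf u
/-- `27` times the product. -/
def PmOf (u : Fin 3 → ℝ) : ℝ := 27 * (u 0 * u 1 * u 2)
/-- Twice `s`. -/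
def sOf (u : Fin 3 → ℝ) : ℝ := PmOf u - 1 + 3 * AOf u
/-- The product of the three normalising constants. -/
def PiOf (u v : Fin 3 → ℝ) : ℝ := piT kR (u 0) (u 1) (u 2) (v 0) (v 1) (v 2)

/-- The three polynomials on the simplex. -/
def gVal (u v : Fin 3 → ℝ) : ℝ :=
  gH kR 1 (cOf u) (AOf u) (sOf u) 1 (cOf v) (AOf v) (sOf v) (PiOf u v)
/-- See `gVal`. -/
def p0Val (u v : Fin 3 → ℝ) : ℝ :=
  p0H kR 1 (cOf u) (AOf u) (sOf u) 1 (cOf v) (AOf v) (sOf v) (PiOf u v) (PmOf u) (PmOf v)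
/-- See `gVal`. -/
def p1Val (u v : Fin 3 → ℝ) : ℝ :=
  p1H kR 1 (cOf u) (AOf u) (sOf u) 1 (cOf v) (AOf v) (sOf v) (PiOf u v) (PmOf u) (PmOf v)

section EvHom

variable (x : Fin 6 → ℝ) (U oA A sA V oB B sB Pi Pm Pn : Ex)

theorem ev_sumT (a b c : Ex) :
    Ex.ev x (sumT a b c) = sumT (Ex.ev x a) (Ex.ev x b) (Ex.ev x c) := by simp [sumT]

theorem ev_compT (a b c : Ex) :
    Ex.ev x (compT Ex.num a b c) = compT kR (Ex.ev x a) (Ex.ev x b) (Ex.ev x c) := by
  simp [compT, kR]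

theorem ev_devT (a b c : Ex) :
    Ex.ev x (devT Ex.num a b c) = devT kR (Ex.ev x a) (Ex.ev x b) (Ex.ev x c) := by
  simp [devT, ev_sumT, ev_compT]

theorem ev_prodT (a b c : Ex) :
    Ex.ev x (prodT Ex.num a b c) = prodT kR (Ex.ev x a) (Ex.ev x b) (Ex.ev x c) := by
  simp [prodT, kR]

theorem ev_cubT (a b c : Ex) :
    Ex.ev x (cubT Ex.num a b c) = cubT kR (Ex.ev x a) (Ex.ev x b) (Ex.ev x c) := by
  simp [cubT, ev_sumT, ev_prodT, ev_devT]
  simp [kR]

theorem ev_piT (a b c a' b' c' : Ex) :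
    Ex.ev x (piT Ex.num a b c a' b' c') = piT kR (Ex.ev x a) (Ex.ev x b) (Ex.ev x c)
      (Ex.ev x a') (Ex.ev x b') (Ex.ev x c') := by
  simp [piT, kR]

theorem ev_gH : Ex.ev x (gH Ex.num U oA A sA V oB B sB Pi) =
    gH kR (Ex.ev x U) (Ex.ev x oA) (Ex.ev x A) (Ex.ev x sA) (Ex.ev x V) (Ex.ev x oB)
      (Ex.ev x B) (Ex.ev x sB) (Ex.ev x Pi) := by
  simp [gH, ndH, nH, iH, upH, kR]

theorem ev_p0H : Ex.ev x (p0H Ex.num U oA A sA V oB B sB Pi Pm Pn) =
    p0H kR (Ex.ev x U) (Ex.ev x oA) (Ex.ev x A) (Ex.ev x sA) (Ex.ev x V) (Ex.ev x oB)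
      (Ex.ev x B) (Ex.ev x sB) (Ex.ev x Pi) (Ex.ev x Pm) (Ex.ev x Pn) := by
  simp [p0H, ndH, nxH, nH, iH, kR]

theorem ev_p1H : Ex.ev x (p1H Ex.num U oA A sA V oB B sB Pi Pm Pn) =
    p1H kR (Ex.ev x U) (Ex.ev x oA) (Ex.ev x A) (Ex.ev x sA) (Ex.ev x V) (Ex.ev x oB)
      (Ex.ev x B) (Ex.ev x sB) (Ex.ev x Pi) (Ex.ev x Pm) (Ex.ev x Pn) := by
  simp [p1H, ev_p0H, defH, kR]

theorem ev_eH (a b c L M : Ex) : Ex.ev x (eH Ex.num a b c L M) =
    eH kR (Ex.ev x a) (Ex.ev x b) (Ex.ev x c) (Ex.ev x L) (Ex.ev x M) := by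
  simp [eH, ev_compT, ev_devT, kR]

end EvHom

theorem cert_g : check 73 12 12 15
    (gTriple Ex.num (su 0) (su 1) (su 2) (sv 0) (sv 1) (sv 2)) = true := by decide +kernel
theorem cert_g' : check 73 12 12 15
    (gTriple Ex.num (su 0) (su 1) (su 2) (sv 0) (sv 2) (sv 1)) = true := by decide +kernel
theorem cert_p0 : check 59 10 10 14
    (p0Triple Ex.num (su 0) (su 1) (su 2) (sv 0) (sv 1) (sv 2)) = true := by decide +kernel
theorem cert_p0' : check 59 10 10 14
    (p0Triple Ex.num (su 0) (su 1) (su 2) (sv 0) (sv 2) (sv 1)) = true := by decide +kernel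
theorem cert_p1 : check 82 14 14 16
    (p1Triple Ex.num (su 0) (su 1) (su 2) (sv 0) (sv 1) (sv 2)) = true := by decide +kernel
theorem cert_p1' : check 82 14 14 16
    (p1Triple Ex.num (su 0) (su 1) (su 2) (sv 0) (sv 2) (sv 1)) = true := by decide +kernel
theorem cert_e : check 45 19 6 14
    (eH Ex.num (su 0) (su 1) (su 2) (Ex.var 3) (Ex.var 4)) = true := by decide +kernel

/-- Points of the simplex. -/
def OnSimplex (u : Fin 3 → ℝ) : Prop := (∀ i, 0 ≤ u i) ∧ u 0 + u 1 + u 2 = 1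

/-- The invariances used to reduce to a sector. -/
structure TriInv (F : (Fin 3 → ℝ) → (Fin 3 → ℝ) → ℝ) : Prop where
  rot : ∀ u v, F ![u 1, u 2, u 0] ![v 1, v 2, v 0] = F u v
  refl : ∀ u v, F ![u 1, u 0, u 2] ![v 1, v 0, v 2] = F u v
  rotRight : ∀ u v, F u ![v 1, v 2, v 0] = F u v

theorem eta3 (u : Fin 3 → ℝ) : ![u 0, u 1, u 2] = u := by
  funext i; fin_cases i <;> rfl

theorem tri_nonneg {F : (Fin 3 → ℝ) → (Fin 3 → ℝ) → ℝ} (hF : TriInv F)
    (h1 : ∀ a b c a' b' c', c ≤ b → b ≤ a → c' ≤ b' → b' ≤ a' →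
      OnSimplex ![a, b, c] → OnSimplex ![a', b', c'] → 0 ≤ F ![a, b, c] ![a', b', c'])
    (h2 : ∀ a b c a' b' c', c ≤ b → b ≤ a → c' ≤ b' → b' ≤ a' →
      OnSimplex ![a, b, c] → OnSimplex ![a', b', c'] → 0 ≤ F ![a, b, c] ![a', c', b'])
    (u v : Fin 3 → ℝ) (hu : OnSimplex u) (hv : OnSimplex v) : 0 ≤ F u v := by
  have mk : ∀ a b c : ℝ, 0 ≤ a → 0 ≤ b → 0 ≤ c → a + b + c = 1 → OnSimplex ![a, b, c] := by
    intro a b c ha hb hc h
    refine ⟨fun i => ?_, by simpa using h⟩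
    fin_cases i <;> simpa
  -- the first argument is sorted
  have sorted : ∀ a b c x y z, c ≤ b → b ≤ a → OnSimplex ![a, b, c] → OnSimplex ![x, y, z] →
      0 ≤ F ![a, b, c] ![x, y, z] := by
    intro a b c x y z hcb hba hu hv
    have hx : 0 ≤ x := by simpa using hv.1 0
    have hy : 0 ≤ y := by simpa using hv.1 1
    have hz : 0 ≤ z := by simpa using hv.1 2
    have hs : x + y + z = 1 := by simpa using hv.2
    have r : ∀ p p' p'' : ℝ, F ![a, b, c] ![p', p'', p] = F ![a, b, c] ![p, p', p''] :=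
      fun p p' p'' => by simpa using hF.rotRight ![a, b, c] ![p, p', p'']
    rcases le_total y x with h | h <;> rcases le_total z y with h' | h' <;>
      rcases le_total z x with h'' | h''
    all_goals first
      | exact h1 a b c x y z hcb hba (by linarith) (by linarith) hu hv
      | exact h2 a b c x z y hcb hba (by linarith) (by linarith) hu
          (mk _ _ _ hx hz hy (by linarith))
      | (rw [← r]; exact h1 a b c y z x hcb hba (by linarith) (by linarith) hu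
          (mk _ _ _ hy hz hx (by linarith)))
      | (rw [← r]; exact h2 a b c y x z hcb hba (by linarith) (by linarith) hu
          (mk _ _ _ hy hx hz (by linarith)))
      | (rw [← r, ← r]; exact h1 a b c z x y hcb hba (by linarith) (by linarith) hu
          (mk _ _ _ hz hx hy (by linarith)))
      | (rw [← r, ← r]; exact h2 a b c z y x hcb hba (by linarith) (by linarith) hu
          (mk _ _ _ hz hy hx (by linarith)))
  have h0 := hu.1 0
  have h1' := hu.1 1
  have h2' := hu.1 2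
  have hs := hu.2
  have g0 := hv.1 0
  have g1 := hv.1 1
  have g2 := hv.1 2
  have gs := hv.2
  have R : ∀ u v, F u v = F ![u 1, u 2, u 0] ![v 1, v 2, v 0] := fun u v => (hF.rot u v).symm
  have S : ∀ u v, F u v = F ![u 1, u 0, u 2] ![v 1, v 0, v 2] := fun u v => (hF.refl u v).symm
  rcases le_total (u 1) (u 0) with h | h <;> rcases le_total (u 2) (u 1) with h' | h' <;>
    rcases le_total (u 2) (u 0) with h'' | h''
  all_goals first
    | (rw [← eta3 u, ← eta3 v]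
       exact sorted _ _ _ _ _ _ (by linarith) (by linarith)
         (mk _ _ _ h0 h1' h2' (by linarith)) (mk _ _ _ g0 g1 g2 (by linarith)))
    | (rw [R u v]
       exact sorted _ _ _ _ _ _ (by linarith) (by linarith)
         (mk _ _ _ h1' h2' h0 (by linarith)) (mk _ _ _ g1 g2 g0 (by linarith)))
    | (rw [R u v, R]
       simp only [Matrix.cons_val_zero, Matrix.cons_val_one, Matrix.cons_val]
       exact sorted _ _ _ _ _ _ (by linarith) (by linarith)
         (mk _ _ _ h2' h0 h1' (by linarith)) (mk _ _ _ g2 g0 g1 (by linarith)))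
    | (rw [S u v]
       exact sorted _ _ _ _ _ _ (by linarith) (by linarith)
         (mk _ _ _ h1' h0 h2' (by linarith)) (mk _ _ _ g1 g0 g2 (by linarith)))
    | (rw [S u v, R]
       simp only [Matrix.cons_val_zero, Matrix.cons_val_one, Matrix.cons_val]
       exact sorted _ _ _ _ _ _ (by linarith) (by linarith)
         (mk _ _ _ h0 h2' h1' (by linarith)) (mk _ _ _ g0 g2 g1 (by linarith)))
    | (rw [S u v, R, R]
       simp only [Matrix.cons_val_zero, Matrix.cons_val_one, Matrix.cons_val]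
       exact sorted _ _ _ _ _ _ (by linarith) (by linarith)
         (mk _ _ _ h2' h1' h0 (by linarith)) (mk _ _ _ g2 g1 g0 (by linarith)))

/-- The sector coordinates of a sorted pair. -/
def pt (a b c a' b' c' : ℝ) : Fin 6 → ℝ := ![a - b, b - c, c, a' - b', b' - c', c']

theorem pt_nonneg {a b c a' b' c' : ℝ} (h1 : c ≤ b) (h2 : b ≤ a) (h3 : 0 ≤ c) (h4 : c' ≤ b')
    (h5 : b' ≤ a') (h6 : 0 ≤ c') : ∀ i, 0 ≤ pt a b c a' b' c' i := by
  intro i
  fin_cases i <;> simp [pt] <;> assumption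

theorem ev_pt (a b c a' b' c' : ℝ) :
    Ex.ev (pt a b c a' b' c') (su 0) = a ∧ Ex.ev (pt a b c a' b' c') (su 1) = b ∧
    Ex.ev (pt a b c a' b' c') (su 2) = c ∧ Ex.ev (pt a b c a' b' c') (sv 0) = a' ∧
    Ex.ev (pt a b c a' b' c') (sv 1) = b' ∧ Ex.ev (pt a b c a' b' c') (sv 2) = c' := by
  simp [su, sv, pt]

theorem parts_eq {a b c : ℝ} (h : OnSimplex ![a, b, c]) :
    sumT a b c = 1 ∧ compT kR a b c = cOf ![a, b, c] ∧ devT kR a b c = AOf ![a, b, c] ∧
      prodT kR a b c = PmOf ![a, b, c] ∧ cubT kR a b c = sOf ![a, b, c] := by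
  have hs : sumT a b c = 1 := by simpa [sumT] using h.2
  refine ⟨hs, ?_, ?_, ?_, ?_⟩ <;>
    simp [cubT, devT, hs, prodT, compT, cOf, AOf, PmOf, sOf, kR]

theorem triInv {H : ℝ → ℝ → ℝ → ℝ → ℝ → ℝ → ℝ → ℝ} :
    TriInv (fun u v => H (cOf u) (PmOf u) (cOf v) (PmOf v) (PiOf u v) 0 0) := by
  constructor <;> intro u v <;>
    simp only [cOf, PmOf, PiOf, piT, Matrix.cons_val_zero, Matrix.cons_val_one, Matrix.cons_val] <;>
    ring_nf

theorem gVal_nonneg {u v : Fin 3 → ℝ} (hu : OnSimplex u) (hv : OnSimplex v) :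
    0 ≤ gVal u v := by
  refine tri_nonneg (F := gVal) ?_ ?_ ?_ u v hu hv
  · exact triInv (H := fun c p c' p' r _ _ =>
      gH kR 1 c (1 - c) (p - 1 + 3 * (1 - c)) 1 c' (1 - c') (p' - 1 + 3 * (1 - c')) r)
  all_goals
    intro a b c a' b' c' h1 h2 h3 h4 hu hv
    have hc : 0 ≤ c := by simpa using hu.1 2
    have hc' : 0 ≤ c' := by simpa using hv.1 2
    obtain ⟨e0, e1, e2, e3, e4, e5⟩ := ev_pt a b c a' b' c'
    obtain ⟨p1, p2, p3, p4, p5⟩ := parts_eq hu
  · have h := ev_nonneg_of_check cert_g _ (pt_nonneg h1 h2 hc h3 h4 hc')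
    simp only [gTriple, ev_gH, ev_sumT, ev_compT, ev_devT, ev_cubT, ev_piT, e0, e1, e2, e3, e4,
      e5, p1, p2, p3, p5] at h
    obtain ⟨q1, q2, q3, q4, q5⟩ := parts_eq hv
    simp only [q1, q2, q3, q5] at h
    simpa [gVal, PiOf] using h
  · have h := ev_nonneg_of_check cert_g' _ (pt_nonneg h1 h2 hc h3 h4 hc')
    simp only [gTriple, ev_gH, ev_sumT, ev_compT, ev_devT, ev_cubT, ev_piT, e0, e1, e2, e3, e4,
      e5, p1, p2, p3, p5] at h
    have hv' : OnSimplex ![a', c', b'] := by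
      refine ⟨fun i => ?_, ?_⟩
      · fin_cases i
        · simpa using hv.1 0
        · simpa using hv.1 2
        · simpa using hv.1 1
      · have := hv.2
        simp at this ⊢
        linarith
    obtain ⟨q1, q2, q3, q4, q5⟩ := parts_eq hv'
    simp only [q1, q2, q3, q5] at h
    simpa [gVal, PiOf] using h

theorem p0Val_nonneg {u v : Fin 3 → ℝ} (hu : OnSimplex u) (hv : OnSimplex v) :
    0 ≤ p0Val u v := by
  refine tri_nonneg (F := p0Val) ?_ ?_ ?_ u v hu hv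
  · exact triInv (H := fun c p c' p' r _ _ =>
      p0H kR 1 c (1 - c) (p - 1 + 3 * (1 - c)) 1 c' (1 - c') (p' - 1 + 3 * (1 - c')) r p p')
  all_goals
    intro a b c a' b' c' h1 h2 h3 h4 hu hv
    have hc : 0 ≤ c := by simpa using hu.1 2
    have hc' : 0 ≤ c' := by simpa using hv.1 2
    obtain ⟨e0, e1, e2, e3, e4, e5⟩ := ev_pt a b c a' b' c'
    obtain ⟨p1, p2, p3, p4, p5⟩ := parts_eq hu
  · have h := ev_nonneg_of_check cert_p0 _ (pt_nonneg h1 h2 hc h3 h4 hc')
    simp only [p0Triple, ev_p0H, ev_sumT, ev_compT, ev_devT, ev_cubT, ev_prodT, ev_piT, e0, e1,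
      e2, e3, e4, e5, p1, p2, p3, p4, p5] at h
    obtain ⟨q1, q2, q3, q4, q5⟩ := parts_eq hv
    simp only [q1, q2, q3, q4, q5] at h
    simpa [p0Val, PiOf] using h
  · have h := ev_nonneg_of_check cert_p0' _ (pt_nonneg h1 h2 hc h3 h4 hc')
    simp only [p0Triple, ev_p0H, ev_sumT, ev_compT, ev_devT, ev_cubT, ev_prodT, ev_piT, e0, e1,
      e2, e3, e4, e5, p1, p2, p3, p4, p5] at h
    have hv' : OnSimplex ![a', c', b'] := by
      refine ⟨fun i => ?_, ?_⟩
      · fin_cases i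
        · simpa using hv.1 0
        · simpa using hv.1 2
        · simpa using hv.1 1
      · have := hv.2
        simp at this ⊢
        linarith
    obtain ⟨q1, q2, q3, q4, q5⟩ := parts_eq hv'
    simp only [q1, q2, q3, q4, q5] at h
    simpa [p0Val, PiOf] using h

theorem p1Val_nonneg {u v : Fin 3 → ℝ} (hu : OnSimplex u) (hv : OnSimplex v) :
    0 ≤ p1Val u v := by
  refine tri_nonneg (F := p1Val) ?_ ?_ ?_ u v hu hv
  · exact triInv (H := fun c p c' p' r _ _ =>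
      p1H kR 1 c (1 - c) (p - 1 + 3 * (1 - c)) 1 c' (1 - c') (p' - 1 + 3 * (1 - c')) r p p')
  all_goals
    intro a b c a' b' c' h1 h2 h3 h4 hu hv
    have hc : 0 ≤ c := by simpa using hu.1 2
    have hc' : 0 ≤ c' := by simpa using hv.1 2
    obtain ⟨e0, e1, e2, e3, e4, e5⟩ := ev_pt a b c a' b' c'
    obtain ⟨p1, p2, p3, p4, p5⟩ := parts_eq hu
  · have h := ev_nonneg_of_check cert_p1 _ (pt_nonneg h1 h2 hc h3 h4 hc')
    simp only [p1Triple, ev_p1H, ev_sumT, ev_compT, ev_devT, ev_cubT, ev_prodT, ev_piT, e0, e1,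
      e2, e3, e4, e5, p1, p2, p3, p4, p5] at h
    obtain ⟨q1, q2, q3, q4, q5⟩ := parts_eq hv
    simp only [q1, q2, q3, q4, q5] at h
    simpa [p1Val, PiOf] using h
  · have h := ev_nonneg_of_check cert_p1' _ (pt_nonneg h1 h2 hc h3 h4 hc')
    simp only [p1Triple, ev_p1H, ev_sumT, ev_compT, ev_devT, ev_cubT, ev_prodT, ev_piT, e0, e1,
      e2, e3, e4, e5, p1, p2, p3, p4, p5] at h
    have hv' : OnSimplex ![a', c', b'] := by
      refine ⟨fun i => ?_, ?_⟩
      · fin_cases i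
        · simpa using hv.1 0
        · simpa using hv.1 2
        · simpa using hv.1 1
      · have := hv.2
        simp at this ⊢
        linarith
    obtain ⟨q1, q2, q3, q4, q5⟩ := parts_eq hv'
    simp only [q1, q2, q3, q4, q5] at h
    simpa [p1Val, PiOf] using h

/-- The edge polynomial in `A`, `x = a - (1 - A)` and `lam`. -/
def eVal (A d lam : ℝ) : ℝ :=
  let s3 := 1 + lam + lam ^ 2
  let s5 := 1 + lam + lam ^ 2 + lam ^ 3 + lam ^ 4
  let s6 := 1 + lam + lam ^ 2 + lam ^ 3 + lam ^ 4 + lam ^ 5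
  3 * (d * d * (s3 - A * s5)) + d ^ 3 * s6 + 3 * A ^ 2 - A ^ 3 * s3
    - 3 * (A * (1 + lam) * ((1 - A) + (1 - lam ^ 2 * A)) * d)

theorem eH_symm (x y z L M : ℝ) :
    eH kR x y z L M = eH kR y z x L M ∧ eH kR x y z L M = eH kR y x z L M := by
  constructor <;> simp only [eH, compT, devT, sumT, kR] <;> ring

theorem eH_eq {x y z lam : ℝ} (hS : x ^ 3 + y ^ 3 + z ^ 3 = 1) :
    eH kR x y z lam (1 - lam)
      = eVal (AOf ![x ^ 3, y ^ 3, z ^ 3]) (3 * (x * y * z) - cOf ![x ^ 3, y ^ 3, z ^ 3]) lam := by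
  have hS' : x * (x * x) + y * (y * y) + z * (z * z) = 1 := by rw [← hS]; ring
  have hT : lam + (1 - lam) = 1 := by ring
  have hc : compT kR (x * (x * x)) (y * (y * y)) (z * (z * z))
      = cOf ![x ^ 3, y ^ 3, z ^ 3] := by
    simp [compT, cOf, kR]; ring
  have ha : devT kR (x * (x * x)) (y * (y * y)) (z * (z * z))
      = AOf ![x ^ 3, y ^ 3, z ^ 3] := by
    simp [devT, hc, sumT, hS', AOf]
  simp only [eH, hS', hT, hc, ha]
  simp only [eVal, AOf, kR]
  push_cast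
  ring

theorem eH_nonneg {x y z lam : ℝ} (hx : 0 ≤ x) (hy : 0 ≤ y) (hz : 0 ≤ z) (h0 : 0 ≤ lam)
    (h1 : lam ≤ 1) : 0 ≤ eH kR x y z lam (1 - lam) := by
  have sorted : ∀ a b c : ℝ, c ≤ b → b ≤ a → 0 ≤ c → 0 ≤ eH kR a b c lam (1 - lam) := by
    intro a b c hcb hba hc
    have h := ev_nonneg_of_check cert_e ![a - b, b - c, c, lam, 1 - lam, 0] (fun i => by
      fin_cases i <;> simp <;> linarith)
    rw [ev_eH] at h
    simpa [su] using h
  have R : ∀ p p' p'', eH kR p p' p'' lam (1 - lam) = eH kR p' p'' p lam (1 - lam) :=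
    fun p p' p'' => (eH_symm p p' p'' _ _).1
  have S : ∀ p p' p'', eH kR p p' p'' lam (1 - lam) = eH kR p' p p'' lam (1 - lam) :=
    fun p p' p'' => (eH_symm p p' p'' _ _).2
  rcases le_total y x with h | h <;> rcases le_total z y with h' | h' <;>
    rcases le_total z x with h'' | h''
  all_goals first
    | exact sorted x y z (by linarith) (by linarith) hz
    | (rw [R]; exact sorted y z x (by linarith) (by linarith) hx)
    | (rw [R, R]; exact sorted z x y (by linarith) (by linarith) hy)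
    | (rw [S]; exact sorted y x z (by linarith) (by linarith) hz)
    | (rw [S, R]; exact sorted x z y (by linarith) (by linarith) hy)
    | (rw [S, R, R]; exact sorted z y x (by linarith) (by linarith) hx)

end Vale.Agent.P154.Q3
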