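import Vale.Agent.P154.Q3.Good3

/-!
# Nonreconstruction up to the Kesten-Stigum bound, three states, ferromagnetic
-/

namespace Vale.Agent.P154.Q3

open Filter Topology Vale.Agent.P154.Tree

/-- `d`-ary trees: nonreconstruction whenever `d * lam ^ 2 ≤ 1` and `2 ≤ d`. -/
theorem regular_three {d : ℕ} (hd : 2 ≤ d) {lam : ℝ} (h0 : 0 ≤ lam) (h1 : lam ≤ 1)
    (h : (d : ℝ) * lam ^ 2 ≤ 1) : Tendsto (adv 3 (regLaw d) lam) atTop (𝓝 0) :=
  tendsto_adv_three (isLaw_regLaw d) h0 h1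
    (Or.inr ⟨h, by rw [branchProb_regLaw hd]; exact one_pos⟩)

/-- Poisson trees: nonreconstruction whenever `d * lam ^ 2 ≤ 1`. -/
theorem poisson_three {d : ℝ} (hd : 0 ≤ d) {lam : ℝ} (h0 : 0 ≤ lam) (h1 : lam ≤ 1)
    (h : d * lam ^ 2 ≤ 1) : Tendsto (adv 3 (poissonLaw d) lam) atTop (𝓝 0) := by
  refine tendsto_adv_three (isLaw_poissonLaw hd) h0 h1 ?_
  rcases hd.eq_or_lt with e | e
  · left
    rw [← e]
    norm_num
  · exact Or.inr ⟨h, branchProb_poissonLaw_pos e⟩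

end Vale.Agent.P154.Q3
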