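import Vale.Agent.P154.Q3.Kron

/-!
# The three checked polynomials
-/

namespace Vale.Agent.P154.Q3

section Hom

variable {R : Type} [Add R] [Mul R] [Sub R] (k : ℤ → R)

/-- Symmetric data of a triple: sum, `1 - A`, `A`, twice `s`, `27` times the product. -/
def sumT (x y z : R) : R := x + y + z
/-- `1 - A`, homogenised. -/
def compT (x y z : R) : R := k 3 * (x * y + y * z + z * x)
/-- `A`, homogenised. -/
def devT (x y z : R) : R := sumT x y z * sumT x y z - compT k x y z
/-- `27` times the product. -/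
def prodT (x y z : R) : R := k 27 * (x * y * z)
/-- Twice `s`, homogenised. -/
def cubT (x y z : R) : R :=
  prodT k x y z - sumT x y z * (sumT x y z * sumT x y z) + k 3 * (devT k x y z * sumT x y z)
/-- The product of the three normalising constants. -/
def piT (x y z x' y' z' : R) : R :=
  (k 3 * (x * x' + y * y' + z * z')) * (k 3 * (x * y' + y * z' + z * x')) *
    (k 3 * (x * z' + y * x' + z * y'))

variable (U oA A sA V oB B sB Pi : R)

/-- `1 - A - B`, homogenised. -/
def iH : R := U * U * (V * V) - A * (V * V) - B * (U * U)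
/-- The numerator `N₀`, homogenised. -/
def nH : R :=
  A * B * (k 2 * (U * U * (V * V)) - A * (V * V) - B * (U * U) - A * B)
    - iH U A V B * (U * U * (V * V)) - B * oB * sA * U - A * oA * sB * V
/-- The numerator of `D`. -/
def ndH : R := iH U A V B * Pi + nH k U oA A sA V oB B sB * (U * V)
/-- The numerator of `X`. -/
def nxH : R := Pi * (U * U * (V * V)) + nH k U oA A sA V oB B sB * (U * V)
/-- `24` times the tangent bound, cleared of its denominator. -/
def upH : R :=
  k 9 * (oA * oA * sA) + k 8 * (U * U * (U * U) * sA)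
    - k 8 * (A * A * (k 2 * (U * U) + oA) * U)
/-- The subadditivity polynomial. -/
def gH : R :=
  k (-120) * (ndH k U oA A sA V oB B sB Pi * (oA * oA * (oB * oB)) * (U * U * (V * V)))
    - k 5 * ((B * oB * (oB * oB) * upH k U oA A sA * U
        + A * oA * (oA * oA) * upH k V oB B sB * V) * Pi)
    - k 24 * (A * B * (A * B) * Pi * (oA * oA * (oB * oB)))
/-- Eight times the main part of the closure inequality. -/
def p0H (Pm Pn : R) : R :=
  k 3 * (Pm * Pn * (k 3 * ((U * U * (V * V) - A * B) * (U * U * (V * V) - A * B))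
      - k 2 * (Pi * (U * V))) * (U * U * (V * V)))
    - k 3 * (Pi * Pi * (U * U * U * (V * V * V)))
    + k 9 * (nxH k U oA A sA V oB B sB Pi * Pi * (U * V))
    - k 3 * ((oB * sA * V + oA * sB * U) * (Pi * Pi))
    + k 8 * (ndH k U oA A sA V oB B sB Pi * Pi * (U * V))
    + k 8 * (A * B * (Pi * Pi) * (U * V))
/-- The defect `D_A`, homogenised. -/
def defH : R := sA * (U * U * U) - A * A * (k 2 * (U * U) + oA)
/-- The closure polynomial in the case of opposite signs. -/
def p1H (Pm Pn : R) : R :=
  k 3 * (p0H k U oA A sA V oB B sB Pi Pm Pn * (oA * oA * (oB * oB)))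
    + k 8 * (defH k U oA A sA * defH k V oB B sB * (Pi * Pi) * (U * V))

/-- The edge polynomial, in the cube roots `x y z` and `lam = L / (L + M)`. -/
def eH (x y z L M : R) : R :=
  let S := x * (x * x) + y * (y * y) + z * (z * z)
  let T := L + M
  let c := compT k (x * (x * x)) (y * (y * y)) (z * (z * z))
  let a := devT k (x * (x * x)) (y * (y * y)) (z * (z * z))
  let d := k 3 * (x * y * z) * S - c
  let T2 := T * T
  let L2 := L * L
  let s3 := T2 + L * T + L2
  let s5 := T2 * T2 + L * (T2 * T) + L2 * T2 + L2 * (L * T) + L2 * L2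
  let s6 := T2 * (T2 * T) + L * (T2 * T2) + L2 * (T2 * T) + L2 * (L * T2) + L2 * (L2 * T)
    + L2 * (L2 * L)
  k 3 * (T * (d * d) * (S * S * (s3 * T2) - a * s5)) + d * (d * d) * s6
    + k 3 * (T2 * (T2 * T) * (S * S) * (a * a))
    - a * (a * a) * (s3 * (T2 * T))
    - k 3 * (a * (L + T) * (c * T2 + (T2 * (S * S) - L2 * a)) * d * T2)

end Hom

/-- The first sector triple. -/
def su : Fin 3 → Ex :=
  ![Ex.var 0 + Ex.var 1 + Ex.var 2, Ex.var 1 + Ex.var 2, Ex.var 2]
/-- The second sector triple. -/
def sv : Fin 3 → Ex :=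
  ![Ex.var 3 + Ex.var 4 + Ex.var 5, Ex.var 4 + Ex.var 5, Ex.var 5]

/-- `gH` on a pair of triples. -/
def gTriple {R : Type} [Add R] [Mul R] [Sub R] (k : ℤ → R) (x y z x' y' z' : R) : R :=
  gH k (sumT x y z) (compT k x y z) (devT k x y z) (cubT k x y z)
    (sumT x' y' z') (compT k x' y' z') (devT k x' y' z') (cubT k x' y' z') (piT k x y z x' y' z')
/-- `p0H` on a pair of triples. -/
def p0Triple {R : Type} [Add R] [Mul R] [Sub R] (k : ℤ → R) (x y z x' y' z' : R) : R :=
  p0H k (sumT x y z) (compT k x y z) (devT k x y z) (cubT k x y z)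
    (sumT x' y' z') (compT k x' y' z') (devT k x' y' z') (cubT k x' y' z') (piT k x y z x' y' z')
    (prodT k x y z) (prodT k x' y' z')
/-- `p1H` on a pair of triples. -/
def p1Triple {R : Type} [Add R] [Mul R] [Sub R] (k : ℤ → R) (x y z x' y' z' : R) : R :=
  p1H k (sumT x y z) (compT k x y z) (devT k x y z) (cubT k x y z)
    (sumT x' y' z') (compT k x' y' z') (devT k x' y' z') (cubT k x' y' z') (piT k x y z x' y' z')
    (prodT k x y z) (prodT k x' y' z')

end Vale.Agent.P154.Q3
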