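import Mathlib.Tactic
import Mathlib.RingTheory.MvPolynomial.WeightedHomogeneous

/-!
# A kernel check that a bihomogeneous polynomial in six variables has nonnegative coefficients

The variables `0 1 2` and `3 4 5` form the two groups. The polynomial is evaluated at one
integer point (Kronecker substitution) and the base `2 ^ K` digits of the value are inspected.
-/

namespace Vale.Agent.P154.Q3

open Finset

/-- Polynomial expressions in six variables with integer coefficients. -/
inductive Ex : Type
  | num (z : ℤ)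
  | var (i : Fin 6)
  | add (a b : Ex)
  | mul (a b : Ex)

namespace Ex

instance : Add Ex := ⟨Ex.add⟩
instance : Mul Ex := ⟨Ex.mul⟩
instance : Sub Ex := ⟨fun a b => Ex.add a (Ex.mul (Ex.num (-1)) b)⟩

variable {R : Type} [CommRing R]

/-- Evaluation. -/
def ev (x : Fin 6 → R) : Ex → R
  | num z => (z : R)
  | var i => x i
  | add a b => ev x a + ev x b
  | mul a b => ev x a * ev x b

@[simp] theorem ev_num (x : Fin 6 → R) (z : ℤ) : ev x (num z) = (z : R) := rfl
@[simp] theorem ev_var (x : Fin 6 → R) (i : Fin 6) : ev x (var i) = x i := rfl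
@[simp] theorem ev_add (x : Fin 6 → R) (a b : Ex) : ev x (a + b) = ev x a + ev x b := rfl
@[simp] theorem ev_mul (x : Fin 6 → R) (a b : Ex) : ev x (a * b) = ev x a * ev x b := rfl
@[simp] theorem ev_sub (x : Fin 6 → R) (a b : Ex) : ev x (a - b) = ev x a - ev x b := by
  show ev x (Ex.add a (Ex.mul (Ex.num (-1)) b)) = _
  simp [ev]
  ring

theorem map_ev {S : Type} [CommRing S] (f : R →+* S) (x : Fin 6 → R) :
    ∀ e : Ex, f (ev x e) = ev (fun i => f (x i)) e
  | num z => by simp [ev]
  | var i => rfl
  | add a b => by simp [ev, map_ev f x a, map_ev f x b]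
  | mul a b => by simp [ev, map_ev f x a, map_ev f x b]

/-- The bidegree, when the expression is syntactically bihomogeneous. -/
def bideg : Ex → Option (ℕ × ℕ)
  | num _ => some (0, 0)
  | var i => if i.val < 3 then some (1, 0) else some (0, 1)
  | add a b =>
    match bideg a, bideg b with
    | some p, some p' => if p.1 == p'.1 && p.2 == p'.2 then some p else none
    | _, _ => none
  | mul a b =>
    match bideg a, bideg b with
    | some p, some p' => some (p.1 + p'.1, p.2 + p'.2)
    | _, _ => none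

/-- A bound for the sum of the absolute values of the coefficients. -/
def nrm : Ex → ℕ
  | num z => z.natAbs
  | var _ => 1
  | add a b => nrm a + nrm b
  | mul a b => nrm a * nrm b

/-- The weight of a variable. -/
def wt (i : Fin 6) : ℕ × ℕ := if i.val < 3 then (1, 0) else (0, 1)

theorem isHom : ∀ (e : Ex) (p : ℕ × ℕ), bideg e = some p →
    MvPolynomial.IsWeightedHomogeneous wt (ev (R := MvPolynomial (Fin 6) ℤ) MvPolynomial.X e) p
  | num z, p, h => by
    simp only [bideg, Option.some.injEq] at h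
    subst h
    show MvPolynomial.IsWeightedHomogeneous wt _ 0
    rw [ev_num, ← map_intCast (MvPolynomial.C : ℤ →+* MvPolynomial (Fin 6) ℤ)]
    simpa using MvPolynomial.isWeightedHomogeneous_C wt z
  | var i, p, h => by
    have hp : p = wt i := by
      simp only [bideg] at h
      unfold wt
      split_ifs at h ⊢ <;> simp_all
    subst hp
    exact MvPolynomial.isWeightedHomogeneous_X ℤ wt i
  | add a b, p, h => by
    simp only [bideg] at h
    split at h
    · rename_i pa pb ha hb
      split_ifs at h with hc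
      simp only [Bool.and_eq_true, beq_iff_eq] at hc
      have hab : pa = pb := Prod.ext hc.1 hc.2
      cases h
      subst hab
      exact (isHom a _ ha).add (isHom b _ hb)
    · exact absurd h (by simp)
  | mul a b, p, h => by
    simp only [bideg] at h
    split at h
    · rename_i pa pb ha hb
      cases h
      exact (isHom a _ ha).mul (isHom b _ hb)
    · exact absurd h (by simp)

theorem coeff_abs_le (ex : Fin 6 → ℕ) : ∀ (e : Ex) (n : ℕ),
    |(ev (R := Polynomial ℤ) (fun i => Polynomial.X ^ ex i) e).coeff n|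
      ≤ (nrm e : ℤ) := by
  suffices h : ∀ e : Ex, ∑ n ∈ (ev (R := Polynomial ℤ) (fun i => Polynomial.X ^ ex i) e).support,
      |(ev (R := Polynomial ℤ) (fun i => Polynomial.X ^ ex i) e).coeff n| ≤ (nrm e : ℤ) by
    intro e n
    by_cases hn : n ∈ (ev (R := Polynomial ℤ) (fun i => Polynomial.X ^ ex i) e).support
    · exact le_trans (single_le_sum (f := fun m =>
        |(ev (R := Polynomial ℤ) (fun i => Polynomial.X ^ ex i) e).coeff m|)
        (fun m _ => abs_nonneg _) hn) (h e)
    · rw [Polynomial.notMem_support_iff.1 hn]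
      simp
  -- the sum of absolute values is subadditive and submultiplicative
  have key : ∀ (p : Polynomial ℤ) (s : Finset ℕ), p.support ⊆ s →
      ∑ n ∈ p.support, |p.coeff n| = ∑ n ∈ s, |p.coeff n| := fun p s hs =>
    sum_subset hs fun n _ hn => by simp [Polynomial.notMem_support_iff.1 hn]
  intro e
  induction e with
  | num z =>
    rw [ev_num, key _ {0} (by
      intro n hn
      rw [Polynomial.mem_support_iff, ← Polynomial.C_eq_intCast, Polynomial.coeff_C] at hn
      split_ifs at hn with h0 <;> simp_all)]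
    rw [sum_singleton, ← Polynomial.C_eq_intCast, Polynomial.coeff_C_zero]
    simp only [nrm, Int.cast_id, Int.abs_eq_natAbs, le_refl]
  | var i =>
    rw [ev_var, key _ {ex i} (by
      intro n hn
      rw [Polynomial.mem_support_iff, Polynomial.coeff_X_pow] at hn
      split_ifs at hn with h0 <;> simp_all)]
    simp [nrm]
  | add a b iha ihb =>
    set p := ev (R := Polynomial ℤ) (fun i => Polynomial.X ^ ex i) a
    set r := ev (R := Polynomial ℤ) (fun i => Polynomial.X ^ ex i) b
    show ∑ n ∈ (p + r).support, |(p + r).coeff n| ≤ _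
    rw [key (p + r) (p.support ∪ r.support) Polynomial.support_add]
    refine (sum_le_sum fun n _ => (by rw [Polynomial.coeff_add]; exact abs_add_le _ _ :
      |(p + r).coeff n| ≤ |p.coeff n| + |r.coeff n|)).trans ?_
    rw [sum_add_distrib, ← key p _ subset_union_left, ← key r _ subset_union_right]
    simp only [nrm, Nat.cast_add]
    exact add_le_add iha ihb
  | mul a b iha ihb =>
    set p := ev (R := Polynomial ℤ) (fun i => Polynomial.X ^ ex i) a
    set r := ev (R := Polynomial ℤ) (fun i => Polynomial.X ^ ex i) b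
    show ∑ n ∈ (p * r).support, |(p * r).coeff n| ≤ _
    let T := (p.support ×ˢ r.support)
    let img := T.image fun x => x.1 + x.2
    have hco : ∀ n, (p * r).coeff n
        = ∑ x ∈ T.filter (fun x => x.1 + x.2 = n), p.coeff x.1 * r.coeff x.2 := by
      intro n
      rw [Polynomial.coeff_mul]
      symm
      refine sum_subset (fun x hx => ?_) fun x hx hn => ?_
      · simp only [mem_filter] at hx
        simpa [Finset.HasAntidiagonal.mem_antidiagonal] using hx.2
      · simp only [Finset.HasAntidiagonal.mem_antidiagonal] at hx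
        simp only [T, mem_filter, mem_product, Polynomial.mem_support_iff, hx, and_true,
          not_and_or, not_not] at hn
        rcases hn with h | h <;> simp [h]
    rw [key (p * r) img (fun n hn => ?_)]
    · calc ∑ n ∈ img, |(p * r).coeff n|
          ≤ ∑ n ∈ img, ∑ x ∈ T.filter (fun x => x.1 + x.2 = n), |p.coeff x.1 * r.coeff x.2| :=
            sum_le_sum fun n _ => by rw [hco]; exact abs_sum_le_sum_abs _ _
        _ = ∑ x ∈ T, |p.coeff x.1 * r.coeff x.2| :=
            sum_fiberwise_of_maps_to (fun x hx => mem_image_of_mem _ hx) _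
        _ = (∑ n ∈ p.support, |p.coeff n|) * ∑ n ∈ r.support, |r.coeff n| := by
            rw [sum_mul_sum, sum_product]
            simp [abs_mul]
        _ ≤ (nrm (Ex.mul a b) : ℤ) := by
            simp only [nrm, Nat.cast_mul]
            exact mul_le_mul iha ihb (sum_nonneg fun n _ => abs_nonneg _) (Int.natCast_nonneg _)
    · rw [Polynomial.mem_support_iff, hco] at hn
      obtain ⟨x, hx, -⟩ := exists_ne_zero_of_sum_ne_zero hn
      simp only [mem_filter] at hx
      exact hx.2 ▸ mem_image_of_mem _ hx.1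

end Ex

/-- All base `2 ^ K` digits among the lowest `2 ^ dep` are below `2 ^ (K - 1)`, and the
higher ones vanish. -/
def digitsSmall (K : ℕ) : ℕ → ℕ → Bool
  | 0, N => decide (N < 2 ^ (K - 1))
  | dep + 1, N => (N == 0) ||
      (digitsSmall K dep (N % 2 ^ (K * 2 ^ dep)) && digitsSmall K dep (N / 2 ^ (K * 2 ^ dep)))

theorem exists_digits {K : ℕ} : ∀ (dep N : ℕ), digitsSmall K dep N = true →
    ∃ R : Polynomial ℤ, (∀ n, 0 ≤ R.coeff n ∧ R.coeff n < 2 ^ (K - 1)) ∧
      (∀ n, 2 ^ dep ≤ n → R.coeff n = 0) ∧ R.eval ((2 : ℤ) ^ K) = (N : ℤ)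
  | 0, N, h => by
    simp only [digitsSmall, decide_eq_true_eq] at h
    refine ⟨Polynomial.C (N : ℤ), fun n => ?_, fun n hn => ?_, by simp⟩
    · rw [Polynomial.coeff_C]
      split_ifs
      · exact ⟨Int.natCast_nonneg N, by exact_mod_cast h⟩
      · exact ⟨le_rfl, by positivity⟩
    · rw [Polynomial.coeff_C, if_neg (by simpa using Nat.one_le_iff_ne_zero.1 hn)]
  | dep + 1, N, h => by
    simp only [digitsSmall, Bool.or_eq_true, beq_iff_eq, Bool.and_eq_true] at h
    rcases h with h | ⟨h1, h2⟩
    · exact ⟨0, fun n => by simp, fun n _ => by simp, by simp [h]⟩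
    obtain ⟨R1, b1, s1, e1⟩ := exists_digits dep _ h1
    obtain ⟨R2, b2, s2, e2⟩ := exists_digits dep _ h2
    have hp : 2 ^ (dep + 1) = 2 ^ dep + 2 ^ dep := by rw [pow_succ]; ring
    refine ⟨R1 + R2 * Polynomial.X ^ (2 ^ dep), fun n => ?_, fun n hn => ?_, ?_⟩
    · rw [Polynomial.coeff_add, Polynomial.coeff_mul_X_pow']
      split_ifs with hle
      · rw [s1 n hle, zero_add]
        exact b2 _
      · rw [add_zero]
        exact b1 n
    · rw [Polynomial.coeff_add, Polynomial.coeff_mul_X_pow', if_pos (by omega),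
        s1 n (by omega), s2 (n - 2 ^ dep) (by omega), add_zero]
    · rw [Polynomial.eval_add, Polynomial.eval_mul, Polynomial.eval_pow, Polynomial.eval_X,
        e1, e2, ← pow_mul]
      have := Nat.mod_add_div N (2 ^ (K * 2 ^ dep))
      push_cast
      rw [mul_comm ((N : ℤ) / _)]
      exact_mod_cast this

theorem eq_zero_of_eval {B : ℤ} : ∀ (n : ℕ) (p : Polynomial ℤ),
    (∀ m, |p.coeff m| < B) → p.eval B = 0 → p.coeff n = 0 := by
  have h0 : ∀ p : Polynomial ℤ, (∀ m, |p.coeff m| < B) → p.eval B = 0 →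
      p.coeff 0 = 0 ∧ p.divX.eval B = 0 := by
    intro p hb he
    have hd : p.divX.eval B * B + p.coeff 0 = 0 := by
      conv_rhs => rw [← he, ← Polynomial.divX_mul_X_add p]
      simp
    have hB : 0 < B := lt_of_le_of_lt (abs_nonneg _) (hb 0)
    have hz : p.coeff 0 = 0 :=
      Int.eq_zero_of_abs_lt_dvd ⟨-p.divX.eval B, by linarith⟩ (hb 0)
    refine ⟨hz, ?_⟩
    rw [hz, add_zero] at hd
    exact (mul_eq_zero.1 hd).resolve_right hB.ne'
  intro n
  induction n with
  | zero => exact fun p hb he => (h0 p hb he).1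
  | succ n ih =>
    intro p hb he
    rw [← Polynomial.coeff_divX]
    exact ih p.divX (fun m => by rw [Polynomial.coeff_divX]; exact hb _) (h0 p hb he).2

/-- The Kronecker exponents for degree bounds `D1`, `D2` in the two groups. -/
def kExp (D1 D2 : ℕ) (i : Fin 6) : ℕ :=
  match i.val with
  | 1 => 1
  | 2 => D1
  | 4 => D1 * D1
  | 5 => D1 * D1 * D2
  | _ => 0

/-- The check. -/
def check (K D1 D2 dep : ℕ) (e : Ex) : Bool :=
  match Ex.bideg e with
  | some p =>
    decide (0 < K) && decide (p.1 < D1) && decide (p.2 < D2) && decide (2 * Ex.nrm e < 2 ^ K) &&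
      (match Ex.ev (fun i => ((2 ^ (K * kExp D1 D2 i) : ℕ) : ℤ)) e with
      | Int.ofNat N => digitsSmall K dep N
      | Int.negSucc _ => false)
  | none => false

theorem weight_eq (m : Fin 6 →₀ ℕ) :
    Finsupp.weight Ex.wt m = (m 0 + m 1 + m 2, m 3 + m 4 + m 5) := by
  rw [Finsupp.weight_apply, Finsupp.sum_fintype _ _ (fun i => by simp)]
  simp [Fin.sum_univ_six, Ex.wt]

/-- A checked expression is nonnegative at nonnegative points. -/
theorem ev_nonneg_of_check {K D1 D2 dep : ℕ} {e : Ex} (h : check K D1 D2 dep e = true)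
    (x : Fin 6 → ℝ) (hx : ∀ i, 0 ≤ x i) : 0 ≤ Ex.ev x e := by
  unfold check at h
  split at h
  swap
  · simp at h
  rename_i p hp
  simp only [Bool.and_eq_true, decide_eq_true_eq] at h
  obtain ⟨⟨⟨⟨hK0, hd1⟩, hd2⟩, hK⟩, hdig⟩ := h
  split at hdig
  swap
  · simp at hdig
  rename_i N hN
  obtain ⟨R, hb, -, hRe⟩ := exists_digits dep N hdig
  set P : MvPolynomial (Fin 6) ℤ := Ex.ev MvPolynomial.X e with hP
  set Q : Polynomial ℤ := Ex.ev (fun i => Polynomial.X ^ kExp D1 D2 i) e with hQ
  have hQe : Q.eval ((2 : ℤ) ^ K) = (N : ℤ) := by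
    show Polynomial.evalRingHom ((2 : ℤ) ^ K) Q = _
    rw [hQ, Ex.map_ev]
    have : (fun i => Polynomial.evalRingHom ((2 : ℤ) ^ K) (Polynomial.X ^ kExp D1 D2 i))
        = fun i => ((2 ^ (K * kExp D1 D2 i) : ℕ) : ℤ) := by
      funext i
      simp [← pow_mul]
    rw [this, hN]
    rfl
  have hQnn : ∀ n, 0 ≤ Q.coeff n := by
    intro n
    have hK' : (2 * (Ex.nrm e : ℤ)) < 2 ^ K := by exact_mod_cast hK
    have hK1 : (2 : ℤ) ^ (K - 1) * 2 = 2 ^ K := by
      rw [← pow_succ, Nat.sub_add_cancel hK0]
    have := eq_zero_of_eval (B := (2 : ℤ) ^ K) n (Q - R) (fun m => by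
      rw [Polynomial.coeff_sub]
      have h1 := Ex.coeff_abs_le (kExp D1 D2) e m
      rw [← hQ] at h1
      have h2 := hb m
      rw [abs_lt]
      rw [abs_le] at h1
      constructor <;> linarith) (by simp [hQe, hRe])
    rw [Polynomial.coeff_sub, sub_eq_zero] at this
    rw [this]
    exact (hb n).1
  have hhom := Ex.isHom e p hp
  rw [← hP] at hhom
  let idx : (Fin 6 →₀ ℕ) → ℕ := fun m => ∑ i, kExp D1 D2 i * m i
  have hidx : ∀ m, idx m = m 1 + D1 * m 2 + D1 * D1 * m 4 + D1 * D1 * D2 * m 5 := by
    intro m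
    simp [idx, Fin.sum_univ_six, kExp]
  have hQP : Q = ∑ m ∈ P.support, Polynomial.C (P.coeff m) * Polynomial.X ^ idx m := by
    have : Q = MvPolynomial.eval₂Hom Polynomial.C (fun i => Polynomial.X ^ kExp D1 D2 i) P := by
      rw [hP, Ex.map_ev]
      simp [hQ]
    rw [this, MvPolynomial.coe_eval₂Hom, MvPolynomial.eval₂_eq']
    refine sum_congr rfl fun m _ => ?_
    simp only [← pow_mul, prod_pow_eq_pow_sum, idx]
  have hinj : ∀ m ∈ P.support, ∀ m' ∈ P.support, idx m = idx m' → m = m' := by
    intro m hm m' hm' he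
    have w1 := hhom (MvPolynomial.mem_support_iff.1 hm)
    have w2 := hhom (MvPolynomial.mem_support_iff.1 hm')
    rw [weight_eq, Prod.ext_iff] at w1 w2
    simp only [] at w1 w2
    rw [hidx, hidx] at he
    have e1 : m 1 = m' 1 ∧ m 2 = m' 2 ∧ m 4 = m' 4 ∧ m 5 = m' 5 := by
      have step : ∀ D a a' b b' : ℕ, a < D → a' < D → a + D * b = a' + D * b' →
          a = a' ∧ b = b' := by
        intro D a a' b b' ha ha' hab
        have h1 := congrArg (· % D) hab
        simp only [Nat.add_mul_mod_self_left, Nat.mod_eq_of_lt ha, Nat.mod_eq_of_lt ha'] at h1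
        subst h1
        exact ⟨rfl, Nat.eq_of_mul_eq_mul_left (lt_of_le_of_lt (Nat.zero_le _) ha)
          (Nat.add_left_cancel hab)⟩
      obtain ⟨q1, r1⟩ := step D1 (m 1) (m' 1) (m 2 + D1 * m 4 + D1 * D2 * m 5)
        (m' 2 + D1 * m' 4 + D1 * D2 * m' 5) (by omega) (by omega) (by linarith)
      obtain ⟨q2, r2⟩ := step D1 (m 2) (m' 2) (m 4 + D2 * m 5) (m' 4 + D2 * m' 5)
        (by omega) (by omega) (by linarith)
      obtain ⟨q4, q5⟩ := step D2 (m 4) (m' 4) (m 5) (m' 5) (by omega) (by omega) r2
      exact ⟨q1, q2, q4, q5⟩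
    obtain ⟨q1, q2, q4, q5⟩ := e1
    refine Finsupp.ext fun i => ?_
    fin_cases i <;> first | assumption | (show m 0 = m' 0; omega) | (show m 3 = m' 3; omega)
  have hcoeff : ∀ m ∈ P.support, 0 ≤ P.coeff m := by
    intro m hm
    have h1 := hQnn (idx m)
    rw [hQP, Polynomial.finsetSum_coeff] at h1
    simp only [Polynomial.coeff_C_mul, Polynomial.coeff_X_pow] at h1
    rw [sum_eq_single m] at h1
    · simpa using h1
    · intro m' hm' hne
      rw [if_neg (fun hi => hne (hinj m' hm' m hm hi.symm)), mul_zero]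
    · exact fun hnot => absurd hm hnot
  have hev : Ex.ev x e = MvPolynomial.eval₂Hom (Int.castRingHom ℝ) x P := by
    rw [hP, Ex.map_ev]
    simp
  rw [hev, MvPolynomial.coe_eval₂Hom, MvPolynomial.eval₂_eq']
  exact sum_nonneg fun m hm => mul_nonneg (by simpa using hcoeff m hm)
    (prod_nonneg fun i _ => pow_nonneg (hx i) _)

end Vale.Agent.P154.Q3
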