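import Vale.Agent.P154.Q3.Certs
import Vale.Agent.P154.Tree.Chan
import Mathlib.Analysis.SpecialFunctions.Pow.Real

/-!
# The pointwise inequalities for three states
-/

namespace Vale.Agent.P154.Q3

open Vale.Agent.P154.Tree Finset

/-- `3` times the geometric mean. -/
noncomputable def gmOf (u : Fin 3 → ℝ) : ℝ := 3 * (u 0 * u 1 * u 2) ^ ((1 : ℝ) / 3)

/-- The functional defining the class of channels. -/
noncomputable def phi3 (u : Fin 3 → ℝ) : ℝ := 3 / 8 * sOf u + (gmOf u - cOf u)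

theorem gm_nonneg {u : Fin 3 → ℝ} (hu : ∀ i, 0 ≤ u i) : 0 ≤ gmOf u :=
  mul_nonneg (by norm_num) (Real.rpow_nonneg (mul_nonneg (mul_nonneg (hu 0) (hu 1)) (hu 2)) _)

theorem gm_cube {u : Fin 3 → ℝ} (hu : ∀ i, 0 ≤ u i) : gmOf u ^ 3 = PmOf u := by
  have hp : 0 ≤ u 0 * u 1 * u 2 := mul_nonneg (mul_nonneg (hu 0) (hu 1)) (hu 2)
  have h : ((u 0 * u 1 * u 2) ^ ((1 : ℝ) / 3)) ^ 3 = u 0 * u 1 * u 2 := by
    rw [← Real.rpow_natCast, ← Real.rpow_mul hp]
    norm_num
  rw [gmOf, mul_pow, h, PmOf]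
  norm_num

theorem c_nonneg {u : Fin 3 → ℝ} (hu : ∀ i, 0 ≤ u i) : 0 ≤ cOf u := by
  have := hu 0; have := hu 1; have := hu 2
  unfold cOf
  positivity

theorem c_le_one {u : Fin 3 → ℝ} (hu : OnSimplex u) : cOf u ≤ 1 := by
  obtain ⟨-, h⟩ := hu
  have : u 2 = 1 - u 0 - u 1 := by linarith
  unfold cOf
  rw [this]
  nlinarith [sq_nonneg (u 0 - u 1), sq_nonneg (u 0 + u 1 - 2 / 3)]

theorem gm_le_one {u : Fin 3 → ℝ} (hu : OnSimplex u) : gmOf u ≤ 1 := by
  by_contra h
  push Not at h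
  have h3 : (1 : ℝ) < gmOf u ^ 3 := one_lt_pow₀ h (by norm_num)
  rw [gm_cube hu.1] at h3
  obtain ⟨hn, hs⟩ := hu
  have h0 := hn 0; have h1 := hn 1; have h2 := hn 2
  have e : u 2 = 1 - u 0 - u 1 := by linarith
  unfold PmOf at h3
  have key : u 0 * u 1 * u 2 * 27 ≤ (u 0 + u 1 + u 2) ^ 3 := by
    nlinarith [mul_nonneg h0 (sq_nonneg (u 1 - u 2)), mul_nonneg h1 (sq_nonneg (u 0 - u 2)),
      mul_nonneg h2 (sq_nonneg (u 0 - u 1)), mul_nonneg (add_nonneg (add_nonneg h0 h1) h2)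
      (add_nonneg (add_nonneg (sq_nonneg (u 0 - u 1)) (sq_nonneg (u 1 - u 2)))
        (sq_nonneg (u 0 - u 2)))]
  rw [hs] at key
  linarith

/-- A point of the simplex with `cOf = 0` is a point mass. -/
theorem point_of_c {u : Fin 3 → ℝ} (hu : OnSimplex u) (h : cOf u = 0) :
    u = ![1, 0, 0] ∨ u = ![0, 1, 0] ∨ u = ![0, 0, 1] := by
  obtain ⟨hn, hs⟩ := hu
  have h0 := hn 0; have h1 := hn 1; have h2 := hn 2
  have a := mul_nonneg h0 h1; have b := mul_nonneg h1 h2; have c := mul_nonneg h2 h0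
  unfold cOf at h
  have ea : u 0 * u 1 = 0 := by linarith
  have eb : u 1 * u 2 = 0 := by linarith
  have ec : u 2 * u 0 = 0 := by linarith
  rcases mul_eq_zero.1 ea with x | x <;> rcases mul_eq_zero.1 eb with y | y <;>
    rcases mul_eq_zero.1 ec with z | z
  all_goals first
    | (left; funext i; fin_cases i <;> simp <;> linarith)
    | (right; left; funext i; fin_cases i <;> simp <;> linarith)
    | (right; right; funext i; fin_cases i <;> simp <;> linarith)

/-- The three rotations of the product of two vectors. -/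
def tw (u v : Fin 3 → ℝ) : Fin 3 → Fin 3 → ℝ :=
  ![![u 0 * v 0, u 1 * v 1, u 2 * v 2], ![u 0 * v 1, u 1 * v 2, u 2 * v 0],
    ![u 0 * v 2, u 1 * v 0, u 2 * v 1]]

/-- The sum of a functional over the three rotations. -/
noncomputable def tSum (f : (Fin 3 → ℝ) → ℝ) (u v : Fin 3 → ℝ) : ℝ :=
  homExt f (tw u v 0) + homExt f (tw u v 1) + homExt f (tw u v 2)

theorem homExt_val (f : (Fin 3 → ℝ) → ℝ) (a b c : ℝ) :
    homExt f ![a, b, c] = (a + b + c) * f ![a / (a + b + c), b / (a + b + c), c / (a + b + c)] := by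
  have : (fun i => ![a, b, c] i / (a + b + c))
      = ![a / (a + b + c), b / (a + b + c), c / (a + b + c)] := by
    funext i; fin_cases i <;> rfl
  simp only [homExt, Fin.sum_univ_three, Matrix.cons_val_zero, Matrix.cons_val_one,
    Matrix.cons_val, this]

theorem homExt_single (f : (Fin 3 → ℝ) → ℝ) (t : ℝ) :
    homExt f ![t, 0, 0] = t * f ![1, 0, 0] ∧ homExt f ![0, t, 0] = t * f ![0, 1, 0] ∧
      homExt f ![0, 0, t] = t * f ![0, 0, 1] := by
  rcases eq_or_ne t 0 with h | h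
  · subst h; simp [homExt_val]
  · simp [homExt_val, h]

theorem sqDev3 (u : Fin 3 → ℝ) :
    sqDev u = (u 0 - 1 / 3) ^ 2 + (u 1 - 1 / 3) ^ 2 + (u 2 - 1 / 3) ^ 2 := by
  simp [sqDev, Fin.sum_univ_three]

theorem A_eq_sqDev {u : Fin 3 → ℝ} (hu : u 0 + u 1 + u 2 = 1) : AOf u = 3 / 2 * sqDev u := by
  have e : u 2 = 1 - u 0 - u 1 := by linarith
  rw [sqDev3, AOf, cOf, e]
  ring

theorem gm_point (u : Fin 3 → ℝ) (h : u 0 * u 1 * u 2 = 0) : gmOf u = 0 := by
  rw [gmOf, h, Real.zero_rpow (by norm_num), mul_zero]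

theorem values_point {u : Fin 3 → ℝ} (hu : OnSimplex u) (h : cOf u = 0) :
    sqDev u = 2 / 3 ∧ phi3 u = 3 / 4 := by
  have hA : AOf u = 1 := by simp [AOf, h]
  have hs := A_eq_sqDev hu.2
  have hp : u 0 * u 1 * u 2 = 0 := by
    rcases point_of_c hu h with e | e | e <;> subst e <;> simp
  refine ⟨by linarith, ?_⟩
  rw [phi3, gm_point u hp, sOf, PmOf, hp, hA, h]
  norm_num

theorem tSum_point_left {u : Fin 3 → ℝ} (hu : OnSimplex u) (h : cOf u = 0) {v : Fin 3 → ℝ}
    (hv : OnSimplex v) (f : (Fin 3 → ℝ) → ℝ) : tSum f u v = f u := by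
  obtain ⟨-, hs⟩ := hv
  have key : ∀ t : ℝ, v 0 * t + v 1 * t + v 2 * t = t := fun t => by
    linear_combination t * hs
  rcases point_of_c hu h with e | e | e <;> subst e
  all_goals
    simp only [tSum, tw, Matrix.cons_val_zero, Matrix.cons_val_one, Matrix.cons_val, one_mul,
      zero_mul, (homExt_single f _).1, (homExt_single f _).2.1, (homExt_single f _).2.2]
  · exact key _
  · linear_combination key (f ![0, 1, 0])
  · linear_combination key (f ![0, 0, 1])

theorem tSum_point_right {v : Fin 3 → ℝ} (hv : OnSimplex v) (h : cOf v = 0) {u : Fin 3 → ℝ}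
    (hu : OnSimplex u) (f : (Fin 3 → ℝ) → ℝ) (hf : f ![1, 0, 0] = f ![0, 1, 0] ∧
      f ![1, 0, 0] = f ![0, 0, 1]) : tSum f u v = f v := by
  obtain ⟨-, hs⟩ := hu
  rcases point_of_c hv h with e | e | e <;> subst e
  all_goals
    simp only [tSum, tw, Matrix.cons_val_zero, Matrix.cons_val_one, Matrix.cons_val, mul_one,
      mul_zero, (homExt_single f _).1, (homExt_single f _).2.1, (homExt_single f _).2.2,
      ← hf.1, ← hf.2]
    linear_combination f ![1, 0, 0] * hs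

/-- The numerator of `X`. -/
def NX (u v : Fin 3 → ℝ) : ℝ :=
  nxH kR 1 (cOf u) (AOf u) (sOf u) 1 (cOf v) (AOf v) (sOf v) (PiOf u v)

/-- The three totals. -/
def mT (u v : Fin 3 → ℝ) : Fin 3 → ℝ :=
  ![u 0 * v 0 + u 1 * v 1 + u 2 * v 2, u 0 * v 1 + u 1 * v 2 + u 2 * v 0,
    u 0 * v 2 + u 1 * v 0 + u 2 * v 1]

theorem pi_eq (u v : Fin 3 → ℝ) : PiOf u v = 27 * (mT u v 0 * mT u v 1 * mT u v 2) := by
  simp [PiOf, piT, mT, kR]
  ring

theorem mT_pos {u v : Fin 3 → ℝ} (hu : OnSimplex u) (hv : OnSimplex v) (hcu : 0 < cOf u)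
    (hcv : 0 < cOf v) : ∀ k, 0 < mT u v k := by
  obtain ⟨un, -⟩ := hu
  obtain ⟨vn, -⟩ := hv
  have key : ∀ a b c x y z : ℝ, 0 ≤ a → 0 ≤ b → 0 ≤ c → 0 ≤ x → 0 ≤ y → 0 ≤ z →
      0 < a * b + b * c + c * a → 0 < x * y + y * z + z * x → 0 < a * x + b * y + c * z := by
    intro a b c x y z ha hb hc hx hy hz h h'
    have p1 := mul_nonneg ha hx; have p2 := mul_nonneg hb hy; have p3 := mul_nonneg hc hz
    by_contra hh
    push Not at hh
    have e1 : a * x = 0 := by linarith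
    have e2 : b * y = 0 := by linarith
    have e3 : c * z = 0 := by linarith
    rcases mul_eq_zero.1 e1 with r | r <;> rcases mul_eq_zero.1 e2 with s | s <;>
      rcases mul_eq_zero.1 e3 with t | t <;> subst r <;> subst s <;> subst t <;>
      norm_num at h <;> norm_num at h'
  intro k
  have h : 0 < u 0 * u 1 + u 1 * u 2 + u 2 * u 0 := by unfold cOf at hcu; linarith
  have h' : 0 < v 0 * v 1 + v 1 * v 2 + v 2 * v 0 := by unfold cOf at hcv; linarith
  fin_cases k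
  · exact key _ _ _ _ _ _ (un 0) (un 1) (un 2) (vn 0) (vn 1) (vn 2) h h'
  · exact key _ _ _ _ _ _ (un 0) (un 1) (un 2) (vn 1) (vn 2) (vn 0) h (by linarith)
  · exact key _ _ _ _ _ _ (un 0) (un 1) (un 2) (vn 2) (vn 0) (vn 1) h (by linarith)

theorem homExt_sqDev (a b c : ℝ) (h : a + b + c ≠ 0) :
    homExt sqDev ![a, b, c] = (a * a + b * b + c * c) / (a + b + c) - (a + b + c) / 3 := by
  rw [homExt_val, sqDev3]
  simp
  field_simp
  ring

theorem homExt_phi3 (a b c : ℝ) (ha : 0 ≤ a) (hb : 0 ≤ b) (hc : 0 ≤ c) (h : 0 < a + b + c) :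
    homExt phi3 ![a, b, c] = 3 / 8 * (27 * (a * b * c) / (a + b + c) ^ 2 - (a + b + c))
      + (9 / 8 + 1) * (3 / 2) * homExt sqDev ![a, b, c] + gmOf ![a, b, c] - (a + b + c) := by
  set m := a + b + c with hm
  have hgm : gmOf ![a / m, b / m, c / m] = gmOf ![a, b, c] / m := by
    have h1 : ∀ i, 0 ≤ ![a / m, b / m, c / m] i := by
      intro i; fin_cases i <;> simp <;> positivity
    have h2 : ∀ i, 0 ≤ ![a, b, c] i := by intro i; fin_cases i <;> simpa
    refine (pow_left_inj₀ (gm_nonneg h1) (div_nonneg (gm_nonneg h2) h.le) (by norm_num)).1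
      (?_ : _ ^ 3 = _ ^ 3)
    rw [div_pow, gm_cube h1, gm_cube h2, PmOf, PmOf]
    simp
    field_simp
  have hsum : a / m + b / m + c / m = 1 := by rw [← add_div, ← add_div, ← hm, div_self h.ne']
  have hA := A_eq_sqDev (u := ![a / m, b / m, c / m]) (by simpa using hsum)
  rw [homExt_val, homExt_val, ← hm, phi3, hgm]
  rw [show cOf ![a / m, b / m, c / m] = 1 - AOf ![a / m, b / m, c / m] by simp [AOf]]
  rw [sOf, PmOf, hA]
  simp
  field_simp
  ring

theorem gm_mul {u v : Fin 3 → ℝ} (hu : ∀ i, 0 ≤ u i) (hv : ∀ i, 0 ≤ v i) (k : Fin 3) :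
    gmOf (tw u v k) = gmOf u * gmOf v / 3 := by
  have hp : 0 ≤ u 0 * u 1 * u 2 := mul_nonneg (mul_nonneg (hu 0) (hu 1)) (hu 2)
  have hq : 0 ≤ v 0 * v 1 * v 2 := mul_nonneg (mul_nonneg (hv 0) (hv 1)) (hv 2)
  have e : tw u v k 0 * tw u v k 1 * tw u v k 2 = (u 0 * u 1 * u 2) * (v 0 * v 1 * v 2) := by
    fin_cases k <;> simp [tw] <;> ring
  rw [gmOf, gmOf, gmOf, e, Real.mul_rpow hp hq]
  ring

theorem ss_poly {u v : Fin 3 → ℝ} (hu : u 0 + u 1 + u 2 = 1) (hv : v 0 + v 1 + v 2 = 1) :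
    27 * (((u 0 * v 0) ^ 2 + (u 1 * v 1) ^ 2 + (u 2 * v 2) ^ 2) * (mT u v 1 * mT u v 2)
      + ((u 0 * v 1) ^ 2 + (u 1 * v 2) ^ 2 + (u 2 * v 0) ^ 2) * (mT u v 0 * mT u v 2)
      + ((u 0 * v 2) ^ 2 + (u 1 * v 0) ^ 2 + (u 2 * v 1) ^ 2) * (mT u v 0 * mT u v 1))
      - PiOf u v / 3 = 2 / 3 * NX u v := by
  have eu : u 2 = 1 - u 0 - u 1 := by linarith
  have ev : v 2 = 1 - v 0 - v 1 := by linarith
  simp [NX, nxH, nH, iH, PiOf, piT, mT, sOf, AOf, cOf, PmOf, kR, eu, ev]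
  ring

theorem mT_sum {u v : Fin 3 → ℝ} (hu : u 0 + u 1 + u 2 = 1) (hv : v 0 + v 1 + v 2 = 1) :
    mT u v 0 + mT u v 1 + mT u v 2 = 1 := by
  have : mT u v 0 + mT u v 1 + mT u v 2 = (u 0 + u 1 + u 2) * (v 0 + v 1 + v 2) := by
    simp [mT]; ring
  rw [this, hu, hv, one_mul]

theorem tSum_sqDev {u v : Fin 3 → ℝ} (hu : OnSimplex u) (hv : OnSimplex v) (hcu : 0 < cOf u)
    (hcv : 0 < cOf v) : tSum sqDev u v = 2 / 3 * (NX u v / PiOf u v) := by
  have hm := mT_pos hu hv hcu hcv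
  have h := ss_poly hu.2 hv.2
  have hsum := mT_sum hu.2 hv.2
  rw [← mul_div_assoc, ← h, pi_eq, tSum]
  have m0 := hm 0; have m1 := hm 1; have m2 := hm 2
  have n0 : u 0 * v 0 + u 1 * v 1 + u 2 * v 2 = mT u v 0 := rfl
  have n1 : u 0 * v 1 + u 1 * v 2 + u 2 * v 0 = mT u v 1 := rfl
  have n2 : u 0 * v 2 + u 1 * v 0 + u 2 * v 1 = mT u v 2 := rfl
  simp only [tw, Matrix.cons_val_zero, Matrix.cons_val_one, Matrix.cons_val]
  rw [homExt_sqDev _ _ _ (n0 ▸ m0.ne'), homExt_sqDev _ _ _ (n1 ▸ m1.ne'),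
    homExt_sqDev _ _ _ (n2 ▸ m2.ne'), n0, n1, n2]
  generalize mT u v 0 = p at *
  generalize mT u v 1 = p' at *
  generalize mT u v 2 = p'' at *
  field_simp
  linear_combination (-(p * p' * p'')) * hsum

/-- The main part of the closure inequality. -/
noncomputable def base (u v : Fin 3 → ℝ) : ℝ :=
  p0Val u v / (8 * PiOf u v ^ 2)

theorem inv_sq_sum {u v : Fin 3 → ℝ} (hu : u 0 + u 1 + u 2 = 1) (hv : v 0 + v 1 + v 2 = 1)
    (hm : ∀ k, 0 < mT u v k) :
    1 / mT u v 0 ^ 2 + 1 / mT u v 1 ^ 2 + 1 / mT u v 2 ^ 2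
      = 27 * ((3 * (1 - AOf u * AOf v) ^ 2 - 2 * PiOf u v) / PiOf u v ^ 2) := by
  have eu : u 2 = 1 - u 0 - u 1 := by linarith
  have ev : v 2 = 1 - v 0 - v 1 := by linarith
  have hp : 3 * (mT u v 0 * mT u v 1 + mT u v 1 * mT u v 2 + mT u v 2 * mT u v 0)
      = 1 - AOf u * AOf v := by
    simp [mT, AOf, cOf, eu, ev]
    ring
  have hsum := mT_sum hu hv
  have m0 := hm 0; have m1 := hm 1; have m2 := hm 2
  rw [pi_eq, ← hp]
  generalize mT u v 0 = a at *
  generalize mT u v 1 = b at *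
  generalize mT u v 2 = c at *
  have ec : c = 1 - a - b := by linarith
  subst ec
  field_simp
  ring

theorem tSum_phi3 {u v : Fin 3 → ℝ} (hu : OnSimplex u) (hv : OnSimplex v) (hcu : 0 < cOf u)
    (hcv : 0 < cOf v) :
    tSum phi3 u v - (cOf v * phi3 u + cOf u * phi3 v)
      = base u v + (gmOf u - cOf u) * (gmOf v - cOf v) := by
  have hm := mT_pos hu hv hcu hcv
  have hn := hu.1
  have hn' := hv.1
  have hS := tSum_sqDev hu hv hcu hcv
  have hI := inv_sq_sum hu.2 hv.2 hm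
  have hsum := mT_sum hu.2 hv.2
  have hg := gm_mul hn hn'
  have hPi : PiOf u v ≠ 0 := by
    rw [pi_eq]
    have := hm 0; have := hm 1; have := hm 2
    positivity
  have step : tSum phi3 u v = 3 / 8 * (PmOf u * PmOf v *
      ((3 * (1 - AOf u * AOf v) ^ 2 - 2 * PiOf u v) / PiOf u v ^ 2) - 1)
      + 51 / 16 * tSum sqDev u v + gmOf u * gmOf v - 1 := by
    have m0 := hm 0; have m1 := hm 1; have m2 := hm 2
    have g0 := hg 0; have g1 := hg 1; have g2 := hg 2
    simp [tw] at g0 g1 g2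
    simp [mT] at m0 m1 m2 hsum hI
    simp only [tSum, tw, Matrix.cons_val_zero, Matrix.cons_val_one, Matrix.cons_val]
    rw [homExt_phi3 _ _ _ (mul_nonneg (hn 0) (hn' 0)) (mul_nonneg (hn 1) (hn' 1))
        (mul_nonneg (hn 2) (hn' 2)) m0,
      homExt_phi3 _ _ _ (mul_nonneg (hn 0) (hn' 1)) (mul_nonneg (hn 1) (hn' 2))
        (mul_nonneg (hn 2) (hn' 0)) m1,
      homExt_phi3 _ _ _ (mul_nonneg (hn 0) (hn' 2)) (mul_nonneg (hn 1) (hn' 0))
        (mul_nonneg (hn 2) (hn' 1)) m2, g0, g1, g2, PmOf, PmOf]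
    linear_combination (81 / 8 * (u 0 * u 1 * u 2) * (v 0 * v 1 * v 2)) * hI - 11 / 8 * hsum
  rw [step, hS, base]
  simp only [phi3, p0Val, p0H, ndH, nxH, nH, iH, NX, kR, AOf]
  push_cast
  field_simp
  ring

theorem pointwise_phi {u v : Fin 3 → ℝ} (hu : OnSimplex u) (hv : OnSimplex v) :
    cOf v * phi3 u + cOf u * phi3 v ≤ tSum phi3 u v := by
  have hcu := c_nonneg hu.1
  have hcv := c_nonneg hv.1
  rcases hcu.eq_or_lt with h | h
  · rw [tSum_point_left hu h.symm hv, (values_point hu h.symm).2, ← h]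
    have := c_le_one hv
    nlinarith
  rcases hcv.eq_or_lt with h' | h'
  · rw [tSum_point_right hv h'.symm hu phi3
      (by constructor <;> simp [phi3, sOf, AOf, cOf, PmOf, gmOf]),
      (values_point hv h'.symm).2, ← h']
    have := c_le_one hu
    nlinarith
  have hm := mT_pos hu hv h h'
  have hPi : 0 < PiOf u v := by
    rw [pi_eq]
    have := hm 0; have := hm 1; have := hm 2
    positivity
  have key := tSum_phi3 hu hv h h'
  have h0 := p0Val_nonneg hu hv
  have h1 := p1Val_nonneg hu hv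
  have hb : 0 ≤ base u v := div_nonneg h0 (by positivity)
  have ha := gm_nonneg hu.1
  have hb' := gm_nonneg hv.1
  have ea := gm_cube hu.1
  have eb := gm_cube hv.1
  set DA := defH kR 1 (cOf u) (AOf u) (sOf u) with hDA
  set DB := defH kR 1 (cOf v) (AOf v) (sOf v) with hDB
  set x := gmOf u - cOf u
  set y := gmOf v - cOf v
  set F := gmOf u ^ 2 + gmOf u * cOf u + cOf u ^ 2 with hFd
  set G := gmOf v ^ 2 + gmOf v * cOf v + cOf v ^ 2 with hGd
  have hxA : x * F = DA := by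
    simp only [hDA, defH, sOf, AOf, kR, ← ea, x, F]
    push_cast
    ring
  have hyB : y * G = DB := by
    simp only [hDB, defH, sOf, AOf, kR, ← eb, y, G]
    push_cast
    ring
  have hF : cOf u ^ 2 ≤ F := by simp only [F]; nlinarith [mul_nonneg ha h.le]
  have hG : cOf v ^ 2 ≤ G := by simp only [G]; nlinarith [mul_nonneg hb' h'.le]
  have hFp : 0 < F := lt_of_lt_of_le (by positivity) hF
  have hGp : 0 < G := lt_of_lt_of_le (by positivity) hG
  rcases le_total 0 (x * y) with hxy | hxy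
  · linarith
  have hbase : base u v * (3 * (cOf u ^ 2 * cOf v ^ 2)) + DA * DB ≥ 0 := by
    have e : p1Val u v = 8 * PiOf u v ^ 2 *
        (base u v * (3 * (cOf u ^ 2 * cOf v ^ 2)) + DA * DB) := by
      simp only [base, p1Val, p1H, p0Val, hDA, hDB, kR]
      push_cast
      field_simp
    rw [e] at h1
    exact (mul_nonneg_iff_of_pos_left (by positivity)).1 h1
  have hFG : 3 * (cOf u ^ 2 * cOf v ^ 2) ≤ F * G := by
    rcases le_total 0 x with hx | hx
    · have : 3 * cOf u ^ 2 ≤ F := by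
        simp only [x] at hx
        simp only [F]
        nlinarith
      calc 3 * (cOf u ^ 2 * cOf v ^ 2) = 3 * cOf u ^ 2 * cOf v ^ 2 := by ring
        _ ≤ F * G := mul_le_mul this hG (sq_nonneg _) hFp.le
    · rcases hx.eq_or_lt with hx0 | hx0
      · have : x = 0 := hx0
        have hF3 : 3 * cOf u ^ 2 ≤ F := by
          simp only [x] at this
          simp only [F]
          nlinarith
        calc 3 * (cOf u ^ 2 * cOf v ^ 2) = 3 * cOf u ^ 2 * cOf v ^ 2 := by ring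
          _ ≤ F * G := mul_le_mul hF3 hG (sq_nonneg _) hFp.le
      · have hy : 0 ≤ y := by
          by_contra hy
          nlinarith
        have : 3 * cOf v ^ 2 ≤ G := by
          simp only [y] at hy
          simp only [G]
          nlinarith
        calc 3 * (cOf u ^ 2 * cOf v ^ 2) = cOf u ^ 2 * (3 * cOf v ^ 2) := by ring
          _ ≤ F * G := mul_le_mul hF this (by positivity) hFp.le
  have hDD : DA * DB = x * y * (F * G) := by rw [← hxA, ← hyB]; ring
  rw [hDD] at hbase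
  have hle : x * y * (F * G) ≤ x * y * (3 * (cOf u ^ 2 * cOf v ^ 2)) :=
    mul_le_mul_of_nonpos_left hFG hxy
  have : 0 ≤ (base u v + x * y) * (3 * (cOf u ^ 2 * cOf v ^ 2)) := by linarith
  have := nonneg_of_mul_nonneg_left this (by positivity)
  linarith

theorem pointwise_ss {u v : Fin 3 → ℝ} (hu : OnSimplex u) (hv : OnSimplex v) :
    tSum sqDev u v ≤ sqDev u + sqDev v
      - 2 / 3 * (AOf v * cOf v * phi3 u + AOf u * cOf u * phi3 v)
      - 2 / 15 * (AOf u ^ 2 * AOf v ^ 2) := by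
  have hcu := c_nonneg hu.1
  have hcv := c_nonneg hv.1
  have hcu1 := c_le_one hu
  have hcv1 := c_le_one hv
  have hAu := A_eq_sqDev hu.2
  have hAv := A_eq_sqDev hv.2
  rcases hcu.eq_or_lt with h | h
  · obtain ⟨e1, e2⟩ := values_point hu h.symm
    rw [tSum_point_left hu h.symm hv, e1, e2, ← h]
    have : AOf u = 1 := by simp [AOf, ← h]
    rw [this]
    have hv0 : 0 ≤ AOf v := by simp [AOf]; linarith
    have hv1 : AOf v ≤ 1 := by simp [AOf]; linarith
    have q1 := mul_le_of_le_one_right hv0 hcv1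
    have q2 := mul_le_of_le_one_right hv0 hv1
    nlinarith
  rcases hcv.eq_or_lt with h' | h'
  · obtain ⟨e1, e2⟩ := values_point hv h'.symm
    rw [tSum_point_right hv h'.symm hu sqDev (by constructor <;> simp [sqDev3] <;> ring),
      e1, e2, ← h']
    have : AOf v = 1 := by simp [AOf, ← h']
    rw [this]
    have hu0 : 0 ≤ AOf u := by simp [AOf]; linarith
    have hu1 : AOf u ≤ 1 := by simp [AOf]; linarith
    have q1 := mul_le_of_le_one_right hu0 hcu1
    have q2 := mul_le_of_le_one_right hu0 hu1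
    nlinarith
  have hm := mT_pos hu hv h h'
  have hPi : 0 < PiOf u v := by
    rw [pi_eq]
    have := hm 0; have := hm 1; have := hm 2
    positivity
  rw [tSum_sqDev hu hv h h']
  -- the tangent bound on the geometric mean
  have up : ∀ {a : Fin 3 → ℝ}, OnSimplex a →
      24 * cOf a ^ 2 * phi3 a ≤ upH kR 1 (cOf a) (AOf a) (sOf a) := by
    intro a ha
    have hg := gm_nonneg ha.1
    have hc := c_nonneg ha.1
    have e := gm_cube ha.1
    have hs : upH kR 1 (cOf a) (AOf a) (sOf a) - 24 * cOf a ^ 2 * phi3 a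
        = 8 * ((gmOf a - cOf a) ^ 2 * (gmOf a + 2 * cOf a)) := by
      simp only [upH, phi3, sOf, AOf, kR, ← e]
      push_cast
      ring
    have : 0 ≤ 8 * ((gmOf a - cOf a) ^ 2 * (gmOf a + 2 * cOf a)) := by positivity
    linarith
  have hg := gVal_nonneg hu hv
  have b1 := mul_le_mul_of_nonneg_left (up hu)
    (show 0 ≤ 5 * (AOf v * cOf v * (cOf v * cOf v) * PiOf u v) by
      have : 0 ≤ AOf v := by simp [AOf]; linarith
      positivity)
  have b2 := mul_le_mul_of_nonneg_left (up hv)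
    (show 0 ≤ 5 * (AOf u * cOf u * (cOf u * cOf u) * PiOf u v) by
      have : 0 ≤ AOf u := by simp [AOf]; linarith
      positivity)
  have fin : 0 ≤ 120 * (cOf u ^ 2 * cOf v ^ 2) * (AOf u * PiOf u v + AOf v * PiOf u v
      - NX u v - (AOf v * cOf v * phi3 u + AOf u * cOf u * phi3 v) * PiOf u v
      - 1 / 5 * (AOf u ^ 2 * AOf v ^ 2) * PiOf u v) := by
    refine le_trans hg ?_
    simp only [gVal, gH, ndH, NX, nxH, iH, kR]
    push_cast
    nlinarith [b1, b2]
  have fin' := (mul_nonneg_iff_of_pos_left (by positivity)).1 fin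
  have hdiv : NX u v / PiOf u v ≤ AOf u + AOf v
      - (AOf v * cOf v * phi3 u + AOf u * cOf u * phi3 v)
      - 1 / 5 * (AOf u ^ 2 * AOf v ^ 2) := by
    rw [div_le_iff₀ hPi]
    linarith
  linarith

theorem phi3_shrink {u : Fin 3 → ℝ} (hu : OnSimplex u) {lam : ℝ} (h0 : 0 ≤ lam) (h1 : lam ≤ 1) :
    lam ^ 3 * phi3 u ≤ phi3 (shrink lam u) := by
  set w := shrink lam u with hw
  have hwn : ∀ i, 0 ≤ w i := fun i => by
    simp only [w, shrink]
    have := hu.1 i
    have : 0 ≤ 1 - lam := by linarith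
    positivity
  have e2 : u 2 = 1 - u 0 - u 1 := by linarith [hu.2]
  have hc : cOf w = 1 - lam ^ 2 * AOf u := by
    simp [w, shrink, cOf, AOf, e2]; ring
  have hP : PmOf w = 1 - 3 * lam ^ 2 * AOf u + lam ^ 3 * sOf u := by
    simp [w, shrink, sOf, PmOf, cOf, AOf, e2]; ring
  have hs : sOf w = lam ^ 3 * sOf u := by
    rw [sOf, hP]
    simp only [AOf] at hc ⊢
    rw [hc]
    ring
  have ha := gm_nonneg hu.1
  have hea := gm_cube hu.1
  -- the cube roots of the coordinates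
  let t : Fin 3 → ℝ := fun i => u i ^ ((1 : ℝ) / 3)
  have ht : ∀ i, t i ^ 3 = u i := fun i => by
    show (u i ^ ((1 : ℝ) / 3)) ^ 3 = u i
    rw [← Real.rpow_natCast, ← Real.rpow_mul (hu.1 i)]
    norm_num
  have htn : ∀ i, 0 ≤ t i := fun i => Real.rpow_nonneg (hu.1 i) _
  have hgt : gmOf u = 3 * (t 0 * t 1 * t 2) := by
    simp only [gmOf, t]
    rw [Real.mul_rpow (mul_nonneg (hu.1 0) (hu.1 1)) (hu.1 2), Real.mul_rpow (hu.1 0) (hu.1 1)]
  have hE := eH_nonneg (htn 0) (htn 1) (htn 2) h0 h1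
  rw [eH_eq (by rw [ht, ht, ht]; exact hu.2), ht, ht, ht, eta3, ← hgt] at hE
  have key : 1 - lam ^ 2 * AOf u + lam ^ 3 * (gmOf u - cOf u) ≤ gmOf w := by
    set g := 1 - lam ^ 2 * AOf u + lam ^ 3 * (gmOf u - cOf u) with hg
    rcases le_total g 0 with hn | hn
    · exact hn.trans (gm_nonneg hwn)
    refine (pow_le_pow_iff_left₀ hn (gm_nonneg hwn) (by norm_num : (3 : ℕ) ≠ 0)).1 ?_
    rw [gm_cube hwn, hP]
    have e : 1 - 3 * lam ^ 2 * AOf u + lam ^ 3 * sOf u - g ^ 3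
        = (1 - lam) * lam ^ 3 * eVal (AOf u) (gmOf u - cOf u) lam := by
      simp only [g, eVal, sOf, ← hea]
      rw [show cOf u = 1 - AOf u by simp [AOf]]
      ring
    have : 0 ≤ (1 - lam) * lam ^ 3 * eVal (AOf u) (gmOf u - cOf u) lam :=
      mul_nonneg (mul_nonneg (by linarith) (by positivity)) hE
    linarith
  simp only [phi3, hs, hc]
  linarith

end Vale.Agent.P154.Q3
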